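import Vale.Agent.P366ST.Abs

/-!
# P366ST: the fluxes at infinity
-/

open MeasureTheory Metric Filter Topology Set
open scoped ContDiff
open Vale.Agent.P366 Vale.Agent.P366.Stmt Vale.Agent.P366M

noncomputable section

namespace Vale.Agent.P366ST

variable {n : ℕ} {M : Type} [Mfe n M] {g : Fld n M} {U : Set M} {l : M → ℝ}
  {P Q T W : Fin n → M → ℝ} {x : M} {ρ R : ℝ}

theorem cv_far (hW : ∀ x, ρ ≤ ‖px x‖ → VAt W x) : CV 1 fun i z => (1 - cut ρ z) * W i z :=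
  cv_of_vAt fun x => by
    by_cases hx : ρ ≤ ‖px x‖
    · exact VAt.smul (cAt_const.sub ((sm_cut ρ).c1 x)) (hW x hx)
    · exact vAt_zero.congr fun i => (cut_ev_in (not_le.1 hx)).mono fun z hz => by
        simp only [hz, sub_self, zero_mul]

theorem dd_far (h0 : 0 < ρ) (hR : 2 * ρ ≤ R) (W : Fin n → M → ℝ) :
    dd (cut R) W = dd (cut R) fun i z => (1 - cut ρ z) * W i z := funext fun x => by
  unfold dd
  by_cases hx : ‖px x‖ < R
  · simp only [pd_cut_in hx, zero_mul]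
  · simp only [cut_zero h0 (hR.trans (not_lt.1 hx)), sub_zero, one_mul]

theorem int_dd (hg : Met g) (h0 : 0 < ρ) (hR : 2 * ρ ≤ R) (hW : ∀ x, ρ ≤ ‖px x‖ → VAt W x) :
    Integrable (dd (cut R) W) (P366M.vol g) := by
  rw [dd_far h0 hR]
  exact (sm_cut R).llip.int_dot (supp_cut (by linarith)) hg ((cv_far hW).of_le zero_le_one)

theorem flux_const (hg : Met g) (h0 : 0 < ρ) (hR : 2 * ρ ≤ R) (hW : ∀ x, ρ ≤ ‖px x‖ → VAt W x)
    (hd : ∀ x, ρ ≤ ‖px x‖ → dv g W x = 0) : ∫ x, dd (cut R) W x ∂P366M.vol g =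
      -∫ x, dv g (fun i z => (1 - cut ρ z) * W i z) x ∂P366M.vol g := by
  have I := hg.ibp_dv' (sm_cut R).llip (supp_cut (by linarith)) (cv_far hW)
  rw [dd_far h0 hR, ← neg_eq_iff_eq_neg]
  refine I.symm.trans (integral_congr_ae (Eventually.of_forall fun x => ?_))
  by_cases hx : ‖px x‖ ≤ R
  · simp only [cut_one hx, one_mul]
  · have h1 : 2 * ρ < ‖px x‖ := hR.trans_lt (not_le.1 hx)
    have h2 : dv g (fun i z => (1 - cut ρ z) * W i z) x = 0 := by
      rw [← hd x (by linarith)]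
      exact dv_congr fun i => (cut_ev_out h0 h1).mono fun z hz => by
        simp only [hz, sub_zero, one_mul]
    simp only [h2, mul_zero]

theorem flux_bd (hg : Met g) {C s : ℝ} (hρ : R0 M ≤ ρ) (hs : 0 ≤ s) :
    ∃ C', ∀ R, ρ ≤ R → ∀ W : Fin n → M → ℝ,
      (∀ x, R ≤ ‖px x‖ → dens g x ≤ C ∧ ∀ i, |W i x| ≤ C * ‖px x‖ ^ (-s)) →
      |∫ x, dd (cut R) W x ∂P366M.vol g| ≤ C' * R ^ (n - 1 - s) := by
  obtain ⟨C₀, c0, c1⟩ := fderiv_cut M
  refine ⟨n * C₀ * |C| * |C| * 2 ^ n * (volume : Measure (E n)).real (ball 0 1),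
    fun R hR W hW => ?_⟩
  have r0 : 0 < R := by linarith [R0_ge M]
  have hB : ∀ y ∈ {y : E n | R ≤ ‖y‖} ∩ closedBall 0 (2 * R), R0 M ≤ ‖y‖ := fun y hy =>
    hρ.trans (hR.trans hy.1)
  have v1 := volume_px (M := M) ((meas_far R).inter measurableSet_closedBall) hB
  have v2 : volume ({y : E n | R ≤ ‖y‖} ∩ closedBall 0 (2 * R)) ≤
      volume (closedBall (0 : E n) (2 * R)) := measure_mono inter_subset_right
  have v3 := v2.trans_lt measure_closedBall_lt_top
  have v4 : (volume : Measure M).real (px ⁻¹' ({y : E n | R ≤ ‖y‖} ∩ closedBall 0 (2 * R))) ≤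
      (2 * R) ^ n * (volume : Measure (E n)).real (ball 0 1) := by
    rw [Measure.real, v1]
    refine (ENNReal.toReal_mono measure_closedBall_lt_top.ne v2).trans_eq ?_
    rw [Measure.addHaar_closedBall _ _ (by positivity), ENNReal.toReal_mul,
      ENNReal.toReal_ofReal (by positivity), finrank_euclideanSpace_fin, Measure.real]
  rw [hg.integral_vol, ← setIntegral_eq_integral_of_forall_compl_eq_zero
    (s := px ⁻¹' ({y : E n | R ≤ ‖y‖} ∩ closedBall 0 (2 * R))) fun x hx => ?_]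
  · refine (norm_setIntegral_le_of_norm_le_const (C := n * (C₀ / R * (|C| * R ^ (-s))) * |C|)
      (f := fun x => dd (cut R) W x * dens g x) (v1 ▸ v3) fun x hx => ?_).trans ((mul_le_mul_of_nonneg_left v4 (by positivity)).trans_eq ?_)
    · obtain ⟨h1, h2⟩ := hW x hx.1
      rw [Real.norm_eq_abs, abs_mul, abs_of_nonneg (dens_nonneg g x)]
      refine mul_le_mul ?_ (h1.trans (le_abs_self _)) (dens_nonneg g x) (by positivity)
      refine (Finset.abs_sum_le_sum_abs _ _).trans ((Finset.sum_le_card_nsmul _ _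
        (C₀ / R * (|C| * R ^ (-s))) fun i _ => ?_).trans_eq (by simp))
      rw [abs_mul]
      refine mul_le_mul ((abs_pd_le ((sm_cut R).diff x) i).trans (c1 R r0 x)) ((h2 i).trans ?_)
        (abs_nonneg _) (by positivity)
      exact mul_le_mul (le_abs_self _) (Real.rpow_le_rpow_of_nonpos r0 hx.1 (by linarith))
        (by positivity) (abs_nonneg _)
    · rw [sub_sub, add_comm, ← sub_sub, Real.rpow_sub_one r0.ne', sub_eq_add_neg, Real.rpow_add r0,
        Real.rpow_natCast, mul_pow]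
      ring
  · simp only [mem_preimage, mem_inter_iff, mem_ofPred_eq, mem_closedBall_zero_iff, not_and_or,
      not_le] at hx
    rcases hx with hx | hx
    · simp [dd, pd_cut_in hx]
    · simp [dd, pd_cut_out r0 hx]

theorem lin_bd' {ψ : ℝ → ℝ} {L : ℝ} (h : ContDiffAt ℝ 1 ψ L) :
    ∃ C, 0 ≤ C ∧ ∀ᶠ s in 𝓝 L, |ψ s - ψ L| ≤ C * |s - L| := by
  obtain ⟨C, hC, k⟩ := (h.differentiableAt one_ne_zero).isBigO_sub.exists_pos
  exact ⟨C, hC.le, by simpa using k.bound⟩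

theorem far_small {C q η : ℝ} (hq : 0 < q) (hη : 0 < η) : ∀ᶠ R in atTop, ∀ x : M, R ≤ ‖px x‖ →
    C * ‖px x‖ ^ (-q) < η := by
  have h := ((tendsto_rpow_neg_atTop hq).const_mul C).eventually
    (gt_mem_nhds (a := η) (by simpa using hη))
  obtain ⟨R, hR⟩ := eventually_atTop.1 h
  exact eventually_atTop.2 ⟨R, fun r hr x hx => hR _ (hr.trans hx)⟩

theorem end_of (h : Dom U l) (hg : Met g) (hP : ∀ x ∈ U, VAt P x) (hQ : ∀ x ∈ U, VAt Q x)
    (hT : ∀ x, ρ ≤ ‖px x‖ → VAt T x) (dP : ∀ x ∈ U, dv g P x = 0) {L q C : ℝ} (hL : 0 < L)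
    (hq : 0 < q)
    (hn : (n : ℝ) - 2 < 2 * q) (hρ : R0 M ≤ ρ)
    (far : ∀ x, ρ ≤ ‖px x‖ → x ∈ U ∧ |l x - L| ≤ C * ‖px x‖ ^ (-q) ∧ dens g x ≤ C ∧
      ∀ i, |P i x| ≤ C * ‖px x‖ ^ (-(q + 1)) ∧ |Q i x| ≤ C * ‖px x‖ ^ (-(q + 1)) ∧
        |Q i x - T i x| ≤ C * ‖px x‖ ^ (-(q + (q + 1))))
    (iT : ∀ R, 2 * ρ ≤ R → ∫ x, dd (cut R) T x ∂P366M.vol g = 0) : End g U l P Q := by
  have h0 : 0 < ρ := by linarith [R0_ge M]
  obtain ⟨R₁, r1, r2⟩ := ((far_small (M := M) (C := C) hq (half_pos hL)).and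
    (eventually_ge_atTop ρ)).exists
  refine ⟨L, |∫ x, dv g (fun i z => (1 - cut ρ z) * P i z) x ∂P366M.vol g|, R₁, hL,
    fun x hx => ⟨(far x (r2.trans hx)).1, ?_⟩, fun ψ χ w η hη => ?_⟩
  · linarith [(abs_le.1 (far x (r2.trans hx)).2.1).1, r1 x hx]
  obtain ⟨C₃, c30, c3⟩ := lin_bd' (w L hL.le).1
  obtain ⟨C₄, c40, c4⟩ := lin_bd' (w L hL.le).2
  obtain ⟨s₀, s0, s1⟩ := Metric.eventually_nhds_iff.1 (c3.and c4)
  obtain ⟨C', hC'⟩ := flux_bd hg (C := |C| + (C₃ + C₄) * |C| * |C| + |ψ L| * |C|)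
    (s := q + (q + 1)) hρ (by positivity)
  have lim := ((tendsto_rpow_neg_atTop (y := -((n : ℝ) - 1 - (q + (q + 1))))
    (by linarith)).const_mul C').eventually (gt_mem_nhds (a := η) (by simpa using hη))
  filter_upwards [lim, far_small (M := M) (C := C) hq s0, eventually_ge_atTop (2 * ρ)]
    with R a1 a2 a3
  rw [neg_neg] at a1
  have cψ : ∀ x ∈ U, CAt 1 (fun z => ψ (l z)) x := fun x hx =>
    (w _ (h.pos x hx).le).1.compM (h.cl x hx)
  have cχ : ∀ x ∈ U, CAt 1 (fun z => χ (l z)) x := fun x hx =>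
    (w _ (h.pos x hx).le).2.compM (h.cl x hx)
  have i1 := int_dd hg h0 a3 (W := fun i z => (ψ (l z) - ψ L) * Q i z + (χ (l z) - χ L) * P i z +
    ψ L * (Q i z - T i z)) fun x hx => by
      have k := (far x hx).1
      exact ((VAt.smul ((cψ x k).sub cAt_const) (hQ x k)).add
        (VAt.smul ((cχ x k).sub cAt_const) (hP x k))).add
        (VAt.smul cAt_const ((hQ x k).sub (hT x hx)))
  have i2 := int_dd hg h0 a3 hT
  have i3 := int_dd hg h0 a3 fun x hx => hP x (far x hx).1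
  have e : ∀ x, dd (cut R) (fun i z => ψ (l z) * Q i z + χ (l z) * P i z) x =
      dd (cut R) (fun i z => (ψ (l z) - ψ L) * Q i z + (χ (l z) - χ L) * P i z +
        ψ L * (Q i z - T i z)) x + ψ L * dd (cut R) T x + χ L * dd (cut R) P x := fun x => by
    simp only [dd, Finset.mul_sum, ← Finset.sum_add_distrib]
    exact Finset.sum_congr rfl fun i _ => by ring
  simp only [e]
  rw [integral_add (i1.fun_add (i2.const_mul _)) (i3.const_mul _),
    integral_add i1 (i2.const_mul _),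
    integral_const_mul, integral_const_mul, iT R a3, mul_zero, add_zero,
    flux_const hg h0 a3 (fun x hx => hP x (far x hx).1) fun x hx => dP x (far x hx).1]
  refine (abs_add_le _ _).trans ?_
  rw [abs_mul, abs_neg, add_comm]
  refine add_le_add_right (le_trans (hC' R (by linarith) _ fun x hx => ?_) a1.le) _
  obtain ⟨-, b1, b2, b3⟩ := far x (by linarith)
  have r0 : 0 < ‖px x‖ := by linarith
  refine ⟨b2.trans ((le_abs_self C).trans (by
    rw [add_assoc]; exact le_add_of_nonneg_right (by positivity))), fun i => ?_⟩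
  obtain ⟨b4, b5, b6⟩ := b3 i
  obtain ⟨b7, b8⟩ := s1 (y := l x) (by rw [Real.dist_eq]; exact b1.trans_lt (a2 x hx))
  have k : ∀ {a s : ℝ}, a ≤ C * ‖px x‖ ^ s → a ≤ |C| * ‖px x‖ ^ s := fun ha =>
    ha.trans (mul_le_mul_of_nonneg_right (le_abs_self C) (by positivity))
  have y1 := mul_le_mul (b7.trans (mul_le_mul_of_nonneg_left (k b1) c30)) (k b5) (abs_nonneg _)
    (by positivity)
  have y2 := mul_le_mul (b8.trans (mul_le_mul_of_nonneg_left (k b1) c40)) (k b4) (abs_nonneg _)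
    (by positivity)
  have y3 := mul_le_mul_of_nonneg_left (k b6) (abs_nonneg (ψ L))
  have y4 : ‖px x‖ ^ (-(q + (q + 1))) = ‖px x‖ ^ (-q) * ‖px x‖ ^ (-(q + 1)) := by
    rw [neg_add, Real.rpow_add r0]
  refine (abs_add_le _ _).trans ((add_le_add_left (abs_add_le _ _) _).trans ?_)
  rw [abs_mul, abs_mul, abs_mul]
  rw [y4] at y3 ⊢
  have y5 : 0 ≤ |C| * (‖px x‖ ^ (-q) * ‖px x‖ ^ (-(q + 1))) := by positivity
  nlinarith

end Vale.Agent.P366ST
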