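import Vale.Agent.P366ST.Pt
import Vale.Agent.P366ST.End
import Vale.Agent.P366EN.End
import Vale.Agent.P366F.Defs

/-!
# P366ST: the staticity
-/

open MeasureTheory Metric Filter Topology Set Matrix Asymptotics
open scoped ContDiff
open Vale.Agent.P366 Vale.Agent.P366M Vale.Agent.P366F
open Vale.Agent.P366.Stmt (E Field BigO)
open Vale.Agent.P366XR (Vf ev D Sm)
open Vale.Agent.P366RB (O2)
open Vale.Agent.P366OC (fa bo_iff lim oc o_add o_mul o_comp)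
open Vale.Agent.P366EN (o_sum o_inv o_det)

noncomputable section

namespace Vale.Agent.P366ST

variable {n : ℕ} {M : Type} [Mfe n M] {Z : Dat n M} {W : Set M} {e : Ch n M} {x : M} {y : E n}

/-- the vector field of `p` -/
def Pm (Z : Dat n M) : Fin n → M → ℝ := fun i x =>
  gr Z.D.g Z.N i x + ∑ j, up Z.D.g i j x * ∑ k, Z.D.K x j k * Z.X k x

/-- the current -/
def Qm (Z : Dat n M) : Fin n → M → ℝ := fun i x => (Z.lam x)⁻¹ * (Z.lam x * Pm Z i x -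
  Z.N x / 2 * gr Z.D.g Z.lam i x + (∑ j, ∑ k, Z.D.g x j k * Pm Z j x * Z.X k x) * Z.X i x)

abbrev Pc (Z : Dat n M) (e : Ch n M) : Vf n := C.Pv (Z.g e) (Z.K e) (Z.Nc e) (Z.Xc e)
abbrev Qc (Z : Dat n M) (e : Ch n M) : Vf n := C.Qv (Z.g e) (Z.K e) (Z.Nc e) (Z.Xc e)
abbrev lc (Z : Dat n M) (e : Ch n M) : E n → ℝ := C.la (Z.g e) (Z.Nc e) (Z.Xc e)

theorem mt (Z : Dat n M) (he : e ∈ At M) : P366Z.Met (Z.g e) := Z.D.met.rep he

theorem smK (Z : Dat n M) (he : e ∈ At M) : Sm (Z.K e) := Z.D.smK e he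

theorem syK (Z : Dat n M) (e : Ch n M) (y : E n) : (Stmt.mat (Z.K e) y)ᵀ = Stmt.mat (Z.K e) y :=
  Matrix.ext fun i j => rep_sy Z.D.syK e y j i

theorem loc_lam (Z : Dat n M) (he : e ∈ At M) : loc e Z.lam = lc Z e := funext fun y =>
  congrArg (Z.N (e.symm y) ^ 2 - ·) ((quad_rep he Z.D.g Z.X Z.X y).symm.trans (quad_dot _ _ _))

theorem two (h : ContDiffAt ℝ ∞ (loc e Z.N) y) : ContDiffAt ℝ 2 (loc e Z.N) y := h.of_le two_le_oo

theorem kv (hZ : Z.Ok) (hp : Pre Z W) (he : e ∈ At M) (hy : e.symm y ∈ W) :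
    C.KV (Z.g e) (Z.K e) (Z.Nc e) (Z.Xc e) y := by
  have h1 := hZ.eq e he y (hp.cp.sub hy)
  have h2 := hp.vac e he y hy
  refine ⟨two h1.smN, fun i => (h1.smX i).of_le two_le_oo, ?_, fun i j => ?_, h2.J0, h2.mu0⟩
  · exact ((ev_iff he).1 (hZ.op.mem_nhds (hp.cp.sub hy))).mono fun z hz => (hZ.eq e he z hz).kil
  · simp [h1.ee, h2.J0]

theorem lc_pos (hp : Pre Z W) (he : e ∈ At M) (hy : e.symm y ∈ W) : 0 < lc Z e y :=
  loc_lam Z he ▸ hp.cp.pos _ hy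

theorem rep_P (he : e ∈ At M) (hN : DifferentiableAt ℝ (Z.Nc e) y) (i : Fin n) :
    repV e (Pm Z) i y = Pc Z e i y := by
  unfold Pm
  rw [repV_add, raise_rep he (fun x i j => up Z.D.g i j x), lower_rep he]
  simp only [← gr_rep he _ (dAt_of_loc he hN), ← up_rep]
  rfl

theorem rep_Q (hZ : Z.Ok) (hp : Pre Z W) (he : e ∈ At M) (hy : e.symm y ∈ W) (i : Fin n) :
    repV e (Qm Z) i y = Qc Z e i y := by
  have k := kv hZ hp he hy
  have hN := P366Z.diff2 k.cN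
  have hl : DAt Z.lam (e.symm y) :=
    dAt_of_loc he (loc_lam Z he ▸ C.df_la (mt Z he) hN k.cX.df)
  have e1 : loc e (fun x => ∑ j, ∑ k, Z.D.g x j k * Pm Z j x * Z.X k x) y =
      P366XR.bl (Z.g e) (Pc Z e) (Z.Xc e) y := by
    refine (quad_rep he Z.D.g (Pm Z) Z.X y).symm.trans ?_
    simp only [rep_P he hN]
    exact quad_dot _ _ _
  unfold Qm
  rw [repV_smul, repV_add, repV_sub, repV_smul, repV_smul, repV_smul]
  simp only [e1, rep_P he hN, ← gr_rep he _ hl, loc_lam Z he, Qc, C.Qv,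
    C.vz_self (mt Z he) (syK Z e y) k.kid.self_of_nhds k.cX.df hN]
  congr 2
  exact congrArg (·⁻¹) (congrFun (loc_lam Z he) y)

theorem ev_W (hp : Pre Z W) (he : e ∈ At M) (hy : e.symm y ∈ W) : ∀ᶠ z in 𝓝 y, e.symm z ∈ W :=
  (ev_iff he).1 (hp.cp.op.mem_nhds hy)

theorem pt_W (hx : x ∈ W) : (ch x).symm (pt x) ∈ W := by rwa [symm_pt]

theorem ev_P (hZ : Z.Ok) (hp : Pre Z W) (he : e ∈ At M) (hy : e.symm y ∈ W) (i : Fin n) :
    repV e (Pm Z) i =ᶠ[𝓝 y] Pc Z e i :=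
  (ev_W hp he hy).mono fun _ hz => rep_P he (P366Z.diff2 (kv hZ hp he hz).cN) i

theorem ev_Q (hZ : Z.Ok) (hp : Pre Z W) (he : e ∈ At M) (hy : e.symm y ∈ W) (i : Fin n) :
    repV e (Qm Z) i =ᶠ[𝓝 y] Qc Z e i := (ev_W hp he hy).mono fun _ hz => rep_Q hZ hp he hz i

theorem vP (hZ : Z.Ok) (hp : Pre Z W) (hx : x ∈ W) : VAt (Pm Z) x := fun i =>
  let k := kv hZ hp (ch_mem x) (pt_W hx)
  (C.c1_Pv (mt Z (ch_mem x)) (smK Z (ch_mem x)) k.cN k.cX i).congr_of_eventuallyEq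
    (ev_P hZ hp (ch_mem x) (pt_W hx) i)

theorem vQ (hZ : Z.Ok) (hp : Pre Z W) (hx : x ∈ W) : VAt (Qm Z) x := fun i =>
  let k := kv hZ hp (ch_mem x) (pt_W hx)
  (C.c1_Qv (mt Z (ch_mem x)) (smK Z (ch_mem x)) k.cN k.cX (lc_pos hp (ch_mem x) (pt_W hx))
    i).congr_of_eventuallyEq (ev_Q hZ hp (ch_mem x) (pt_W hx) i)

theorem dom (hZ : Z.Ok) (hp : Pre Z W) : Dom W Z.lam where
  op := hp.cp.op
  cl x hx := by
    have k := kv hZ hp (ch_mem x) (pt_W hx)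
    unfold CAt
    rw [loc_lam Z (ch_mem x)]
    exact C.c1_la (mt Z (ch_mem x)) k.cN k.cX
  pos := hp.cp.pos
  cpt t ht R := by
    convert hp.out.cpt (√t) (Real.sqrt_pos.2 ht) R using 3 with x
    exact and_congr_right fun hx => and_congr_left fun _ =>
      (Real.sqrt_le_sqrt_iff (hp.cp.pos x hx).le).symm

theorem dd_rep (hZ : Z.Ok) (hp : Pre Z W) (he : e ∈ At M) (hy : e.symm y ∈ W) {X : Fin n → M → ℝ}
    {Y : Vf n} (h : ∀ i, repV e X i y = Y i y) : dd Z.lam X (e.symm y) = D Y (lc Z e) y := by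
  rw [dd, dot_loc he (((dom hZ hp).cl _ hy).differentiableAt one_ne_zero), loc_lam Z he, D,
    dotProduct_comm]
  simp only [h]
  rfl

theorem fx (hZ : Z.Ok) (hp : Pre Z W) (he : e ∈ At M) (hy : e.symm y ∈ W) :
    dv Z.D.g (Pm Z) (e.symm y) = 0 ∧ 0 ≤ dv Z.D.g (Qm Z) (e.symm y) ∧
    dd Z.lam (Qm Z) (e.symm y) ≤ dd Z.lam (Pm Z) (e.symm y) ∧
    dd Z.lam (Qm Z) (e.symm y) ^ 2 ≤ Z.lam (e.symm y) * dv Z.D.g (Qm Z) (e.symm y) *
      (dd Z.lam (Pm Z) (e.symm y) - dd Z.lam (Qm Z) (e.symm y)) ∧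
    (dv Z.D.g (Qm Z) (e.symm y) = 0 → C.Tw (Z.g e) (Z.K e) (Z.Nc e) (Z.Xc e) y = 0) ∧
    dd Z.lam (Qm Z) (e.symm y) = 2 * (C.wv (Z.g e) (Z.K e) (Z.Nc e) (Z.Xc e) y ⬝ᵥ
      (Stmt.mat (Z.g e) y)⁻¹ *ᵥ C.Tw (Z.g e) (Z.K e) (Z.Nc e) (Z.Xc e) y *ᵥ ev (Z.Xc e) y) /
        Z.lam (e.symm y) ∧
    dd Z.lam (Pm Z) (e.symm y) =
      2 * (C.wv (Z.g e) (Z.K e) (Z.Nc e) (Z.Xc e) y ⬝ᵥ ev (Pc Z e) y) := by
  have k := kv hZ hp he hy
  rw [← dv_rep Z.D.met he (vP hZ hp hy).dv, ← dv_rep Z.D.met he (vQ hZ hp hy).dv,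
    P366Z.dv_congr (ev_P hZ hp he hy), P366Z.dv_congr (ev_Q hZ hp he hy),
    dd_rep hZ hp he hy (rep_Q hZ hp he hy), dd_rep hZ hp he hy (rep_P he (P366Z.diff2 k.cN)),
    show Z.lam (e.symm y) = _ from congrFun (loc_lam Z he) y]
  exact ⟨C.dv_Pv (mt Z he) (smK Z he) (syK Z e y) k, C.facts (mt Z he) (smK Z he) (syK Z e) k
    (hp.vac e he y hy).N0 (lc_pos hp he hy)⟩

theorem am_eq (hZ : Z.Ok) (hp : Pre Z W) (he : e ∈ At M) (hy : e.symm y ∈ W) (i j : Fin n) :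
    C.Am (Z.g e) (Z.K e) (Z.Nc e) (Z.Xc e) y i j = Z.a e y i j := by
  have := congrFun (congrFun (C.am_sk (syK Z e y) (kv hZ hp he hy).kid.self_of_nhds) i) j
  rw [Matrix.neg_apply, transpose_apply] at this
  rw [← neg_neg (C.Am _ _ _ _ _ i j), ← this, Dat.a, aa,
    show Z.K e y i j = _ from rep_sy Z.D.syK e y i j]
  exact neg_neg _

theorem gp_eq (Z : Dat n M) (he : e ∈ At M) (y : E n) (i : Fin n) :
    (Stmt.mat (Z.g e) y *ᵥ ev (Pc Z e) y) i = Z.p e i y := congrFun (C.ev_Pv (mt Z he) y) i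

theorem tw_eq (hZ : Z.Ok) (hp : Pre Z W) (he : e ∈ At M) (hy : e.symm y ∈ W) (i j : Fin n) :
    C.Tw (Z.g e) (Z.K e) (Z.Nc e) (Z.Xc e) y i j = Z.tw e y i j := by
  simp only [C.Tw, tw, Matrix.sub_apply, Matrix.add_apply, Matrix.smul_apply, vecMulVec_apply,
    am_eq hZ hp he hy, gp_eq Z he, Dat.tw, smul_eq_mul, mul_comm (Z.p e i y)]
  rfl

theorem wv_eq (hZ : Z.Ok) (hp : Pre Z W) (he : e ∈ At M) (hy : e.symm y ∈ W) (i : Fin n) :
    C.wv (Z.g e) (Z.K e) (Z.Nc e) (Z.Xc e) y i = Z.w e i y := by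
  simp only [C.wv, Pi.sub_apply, Pi.smul_apply, gp_eq Z he, Dat.w, smul_eq_mul]
  simp only [mulVec, dotProduct, am_eq hZ hp he hy, ev]

theorem hd1 (hZ : Z.Ok) (hp : Pre Z W) (hd : Z.Hd W) (R : ℝ) :
    ∃ C, ∀ x ∈ W, ‖px x‖ ≤ R → |dd Z.lam (Qm Z) x| ≤ C := by
  obtain ⟨C, hC⟩ := hd R
  refine ⟨2 * C, fun x hx hR => ?_⟩
  have h1 := (fx hZ hp (ch_mem x) (pt_W hx)).2.2.2.2.2.1
  have h2 := hC x hx hR
  have h3 := hp.cp.pos x hx
  rw [symm_pt] at h1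
  rw [h1, abs_div, abs_of_pos h3, div_le_iff₀ h3, abs_mul, abs_two, mul_assoc]
  refine mul_le_mul_of_nonneg_left (le_of_eq_of_le (congrArg _ ?_) h2) zero_le_two
  simp only [mulVec, dotProduct, wv_eq hZ hp (ch_mem x) (pt_W hx), tw_eq hZ hp (ch_mem x) (pt_W hx),
    ev, repV_pt, Finset.mul_sum, Stmt.up, mul_assoc, mul_left_comm (Z.w _ _ _)]

theorem hd2 (hZ : Z.Ok) (hp : Pre Z W) (R : ℝ) :
    ∃ C, ∀ x, ‖px x‖ ≤ R → x ∈ W → |dd Z.lam (Pm Z) x| ≤ C :=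
  bdd_cpt (isCompact_px M R) fun x => by
    have he := ch_mem x
    generalize ch x = e at he
    have hc := isCompact_closedBall (pt x) 1
    have c : ∀ {f : E n → ℝ}, Stmt.Smooth f →
        f =O[𝓟 (closedBall (pt x) 1 ∩ {y | e.symm y ∈ W})] fun _ => (1 : ℝ) := fun hf =>
      (hf.cont.continuousOn.isBigO_principal hc (by simp)).mono (principal_mono.2 inter_subset_left)
    obtain ⟨B0, b0⟩ := hp.bnd e he _ 0 hc
    obtain ⟨B1, b1⟩ := hp.bnd e he _ 1 hc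
    simp only [norm_iteratedFDeriv_zero, norm_iteratedFDeriv_one] at b0 b1
    have B : C.Bd (𝓟 (closedBall (pt x) 1 ∩ {y | e.symm y ∈ W})) (fun _ => (1 : ℝ))
        (Z.g e) (Z.K e) (Z.Nc e) (Z.Xc e) :=
      ⟨fun i j => c ((mt Z he).sm i j), fun i j => c ((mt Z he).sm_up i j),
        fun k i j => c ((mt Z he).sm_chr k i j), fun i j => c (smK Z he i j),
        isBigO_principal.2 ⟨B0, fun y hy => by simpa using (b0 y hy.1 (hp.cp.sub hy.2)).1⟩,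
        fun i => isBigO_principal.2 ⟨B1, fun y hy => by
          simpa using (P366Z.abs_pd_le (P366Z.diff2 (kv hZ hp he hy.2).cN) i).trans
            (b1 y hy.1 (hp.cp.sub hy.2)).1⟩,
        fun i => isBigO_principal.2 ⟨B0, fun y hy => by
          simpa using (b0 y hy.1 (hp.cp.sub hy.2)).2 i⟩,
        fun i j => isBigO_principal.2 ⟨B1, fun y hy => by
          simpa using (P366Z.abs_pd_le ((kv hZ hp he hy.2).cX.df i) j).trans
            ((b1 y hy.1 (hp.cp.sub hy.2)).2 i)⟩⟩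
    obtain ⟨C, hC⟩ := isBigO_principal.1 B.wp
    refine ⟨2 * C, fun y hy hw => ?_⟩
    rw [(fx hZ hp he hw).2.2.2.2.2.2, abs_mul, abs_two]
    simpa using hC y ⟨hy, hw⟩

/-! ### the end -/

/-- the field `X` in the end -/
abbrev Xe (Z : Dat n M) : Vf n := fun i => fe (Z.X i)

/-- the twist applied to a field in the end -/
abbrev Ve (Z : Dat n M) (Y : Vf n) : Vf n := C.Vz (fe Z.D.g) (fe Z.D.K) (fe Z.N) (Xe Z) Y

/-- the linear function of the limit of `X` -/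
def hl (Z : Dat n M) (y : E n) : ℝ := ∑ k, Z.X0 k * y k

theorem sm_hl (Z : Dat n M) : Stmt.Smooth (hl Z) :=
  ContDiff.sum fun k _ => contDiff_const.mul (P366Z.contDiff_coord k)

theorem pd_hl (Z : Dat n M) (i : Fin n) (y : E n) : Stmt.pd i (hl Z) y = Z.X0 i := by
  unfold hl
  rw [P366Z.pd_sum _ fun k _ => ((P366Z.contDiff_coord (m := 1) k).differentiable one_ne_zero
    y).const_mul _]
  simp [P366Z.pd_const_mul, P366Z.pd_coord]

theorem eqv (Z : Dat n M) (hx : R0 M < ‖px x‖) : C.Eqv (Z.g (ch x)) (fe Z.D.g) (Z.K (ch x))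
    (fe Z.D.K) (Z.Nc (ch x)) (fe Z.N) (Z.Xc (ch x)) (Xe Z) (pt x) := by
  rw [pt_far hx.le]
  nth_rw 1 2 3 4 [← yp_px (x := x) (by linarith)]
  exact ⟨rep_ye hx _, rep_ye hx _, loc_ye hx.le _, repV_ye hx _⟩

theorem rep_px (hx : R0 M < ‖px x‖) (Y : Vf n) (i : Fin n) :
    repV (ch x) (fun i z => Y i (px z)) i =ᶠ[𝓝 (pt x)] Y i := by
  obtain ⟨j, y, rfl, h⟩ := far_rep (x := x) (by linarith)
  rw [h] at hx
  rw [pt_ye hx.le]
  have h1 := repV_ye (j := j) hx (fun i z => Y i (px z)) i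
  exact h1.trans (fj_px (by linarith) (Y i))

theorem far_V (Z : Dat n M) (hx : R0 M < ‖px x‖) {Y : Field n → Vf n}
    (hY : ∀ g g' y, g y = g' y → ∀ i, Y g i y = Y g' i y) (i : Fin n) :
    repV (ch x) (fun i z => Ve Z (Y (fe Z.D.g)) i (px z)) i =ᶠ[𝓝 (pt x)]
      C.Vz (Z.g (ch x)) (Z.K (ch x)) (Z.Nc (ch x)) (Z.Xc (ch x)) (Y (Z.g (ch x))) i :=
  (rep_px hx _ i).trans
    ((eqv Z hx).ev.mono fun z hz => (hz.vz (hY _ _ z hz.g.eq_of_nhds) i).symm)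

theorem flux0 (hZ : Z.Ok) (hp : Pre Z W) {ρ R : ℝ} (hρ : R0 M < ρ) (hW : ∀ x, ρ ≤ ‖px x‖ → x ∈ W)
    (hR : ρ ≤ R) : ∫ x, dd (cut R) (fun i z => Ve Z (P366Z.gr (fe Z.D.g) (hl Z)) i (px z)) x
      ∂P366M.vol Z.D.g = 0 := by
  have r0 : 0 < R := by linarith [R0_ge M]
  have f1 := fun x hx => far_V (x := x) Z hx
    (Y := fun g i y => hl Z y * P366Z.gr g (P366Z.cut R) i y)
    fun g g' y h i => by rw [P366Z.gr_of_eq h]
  have z1 : ∀ z : M, (∀ j, Stmt.pd j (P366Z.cut R) (px z) = 0) → ∀ i, Ve Z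
      (fun i y => hl Z y * P366Z.gr (fe Z.D.g) (P366Z.cut R) i y) i (px z) = 0 := fun z hz i =>
    C.vz_zero i (funext fun j => by simp [ev, P366Z.gr, hz])
  have z2 : ∀ x : M, ‖px x‖ < R → ∀ i, (fun z : M => Ve Z (fun i y => hl Z y *
      P366Z.gr (fe Z.D.g) (P366Z.cut R) i y) i (px z)) =ᶠ[𝓝 x] fun _ => 0 := fun x hx i =>
    (ev_px_lt hx).mono fun z hz => z1 z (P366Z.pd_cut_in hz) i
  have I := Z.D.met.integral_dv' (cv_of_vAt (X := fun i z => Ve Z (fun i y => hl Z y *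
      P366Z.gr (fe Z.D.g) (P366Z.cut R) i y) i (px z)) fun x => ?_) (isCompact_px M (2 * R))
    fun x hx => z1 x (P366Z.pd_cut_out r0 (not_le.1 hx))
  · rw [← neg_eq_zero, ← integral_neg, ← I]
    refine integral_congr_ae (Eventually.of_forall fun x => ?_)
    by_cases hx : ‖px x‖ < R
    · simp only [dv_zero_of_ev (z2 x hx), dd, pd_cut_in hx, zero_mul, Finset.sum_const_zero,
        neg_zero]
    have h1 : ρ ≤ ‖px x‖ := hR.trans (not_lt.1 hx)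
    have h2 := hρ.trans_le h1
    have he := ch_mem x
    simp only [dv, P366Z.dv_congr (f1 x h2)]
    rw [C.flux (mt Z he) (smK Z he) (syK Z _) (kv hZ hp he (pt_W (hW x h1)))
      ((P366Z.sm_cut R).c2 _) ((sm_hl Z).diff _), D, dotProduct_comm, dd, dotProduct]
    refine congrArg _ (Finset.sum_congr rfl fun i _ => ?_)
    rw [ev, (eqv Z h2).vz fun i => P366Z.gr_of_eq (eqv Z h2).g.eq_of_nhds _ i, pt_far h2.le]
    exact congrArg (· * _) (pd_px h2.le i _)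
  · by_cases hx : ‖px x‖ < R
    · exact vAt_zero.congr (z2 x hx)
    have h1 : ρ ≤ ‖px x‖ := hR.trans (not_lt.1 hx)
    have he := ch_mem x
    have k := kv hZ hp he (pt_W (hW x h1))
    exact fun i => (C.c1_Vz (mt Z he) (smK Z he) k.cN k.cX (fun j => (C.c1_sm (sm_hl Z)).mul
      (C.c1_gr (mt Z he) ((P366Z.sm_cut R).c2 _) j)) i).congr_of_eventuallyEq
      (f1 x (hρ.trans_le h1) i)

theorem bo_ev {f : E n → ℝ} {s : ℝ} (h : f =O[fa n] fun y => ‖y‖ ^ (-s)) :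
    ∀ᶠ C in atTop, ∀ᶠ y in fa n, |f y| ≤ C * ‖y‖ ^ (-s) :=
  (isBigO_iff_eventually.1 h).mono fun _ k => k.mono fun y m => by
    rwa [Real.norm_of_nonneg (r := _ ^ _) (by positivity)] at m

theorem hend (hZ : Z.Ok) (hp : Pre Z W) : End Z.D.g W Z.lam (Pm Z) (Qm Z) := by
  have hn : (3 : ℝ) ≤ n := by exact_mod_cast hZ.dim
  have hq : 0 < Z.q := by linarith [hZ.q0]
  have o : ∀ {c : ℝ} {f : E n → ℝ}, O2 Z.q c f → f =O[fa n] fun _ => (1 : ℝ) := fun h =>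
    (lim hq h.d0).isBigO_one ℝ
  have og : ∀ i j, O2 Z.q ((1 : Matrix (Fin n) (Fin n) ℝ) i j)
      fun y => Stmt.mat (fe Z.D.g) y i j := fun i j => by
    rw [Matrix.one_apply]; exact hZ.og i j
  have ou := o_inv hq (by simp) og
  have B : C.Bd (fa n) (fun y => ‖y‖ ^ (-(Z.q + 1))) (fe Z.D.g) (fe Z.D.K) (fe Z.N) (Xe Z) :=
    ⟨fun i j => o (og i j), fun i j => o (ou i j), fun k i j => by
      have d := fun a b c => bo_iff.1 ((hZ.og a b).d1 c)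
      exact ((IsBigO.fun_sum (s := Finset.univ) fun l _ => ((o (ou k l)).mul (((d j l i).add
        (d i l j)).sub (d i j l))).trans C.o1).const_mul_left 2⁻¹).congr_left
        fun y => (div_eq_inv_mul _ _).symm,
      fun i j => bo_iff.1 (hZ.oK i j).1, o hZ.oN, fun i => bo_iff.1 (hZ.oN.d1 i),
      fun i => o (hZ.oX i), fun i j => bo_iff.1 ((hZ.oX i).d1 j)⟩
  have ol : O2 Z.q 1 (C.la (fe Z.D.g) (fe Z.N) (Xe Z)) := by
    have := o_add (o_mul hq hZ.oN hZ.oN) (o_mul hq ((oc n _ hq).1 (-1)) (o_sum hq Finset.univ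
      fun i => o_mul hq (hZ.oX i) (o_sum hq Finset.univ fun j => o_mul hq (og i j) (hZ.oX j))))
    convert this using 1
    · simpa [Matrix.one_apply, sq, sub_eq_add_neg] using hZ.one.symm
    · funext y
      simp only [C.la, sq, neg_one_mul, sub_eq_add_neg]
      rfl
  have oi := o_comp hq ol (φ := fun t => t⁻¹)
    ((eventually_ne_nhds one_ne_zero).mono fun t ht => contDiffAt_inv ℝ ht)
  have m : ∀ {s : ℝ}, (fun y : E n => ‖y‖ ^ (-(Z.q + 1)) * ‖y‖ ^ (-s)) =O[fa n]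
      fun y => ‖y‖ ^ (-(s + (Z.q + 1))) := fun {s} => EventuallyEq.isBigO
    ((P366OC.ev 0).mono fun y hy => by simp only [neg_add s, Real.rpow_add hy, mul_comm])
  have b1 := fun i => bo_ev (B.pv i)
  have b2 := fun i => bo_ev (((o oi).mul ((B.vz B.bX i).trans C.o2)).trans C.o1)
  have b3 := fun i => bo_ev ((B.vz (Z := fun i y => (C.la (fe Z.D.g) (fe Z.N) (Xe Z) y)⁻¹ *
    Xe Z i y - P366Z.gr (fe Z.D.g) (hl Z) i y) (fun j => by
      have := (o_add (o_mul hq oi (hZ.oX j)) (o_mul hq ((oc n _ hq).1 (-1))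
        (o_sum hq Finset.univ fun k => o_mul hq (ou j k) ((oc n _ hq).1 (Z.X0 k))))).d0
      refine (bo_iff.1 this).congr_left fun y => ?_
      simp [Matrix.one_apply, P366Z.gr, pd_hl, Stmt.up, sub_eq_add_neg]) i).trans m)
  have b4 := bo_ev (bo_iff.1 ol.d0)
  have b5 := isBigO_iff_eventually.1 (((Real.continuous_sqrt.tendsto _).comp
    (lim hq (o_det hq og).d0)).isBigO_one ℝ)
  obtain ⟨A, ⟨⟨c1, c2⟩, c3⟩, c4, c5⟩ := ((((eventually_all.2 b1).and (eventually_all.2 b2)).and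
    (eventually_all.2 b3)).and (b4.and b5)).exists
  obtain ⟨R₁, r1⟩ := P366OC.ev_iff.2 ((((eventually_all.2 c1).and (eventually_all.2 c2)).and
    (eventually_all.2 c3)).and (c4.and c5))
  obtain ⟨R₂, r2⟩ := hp.cp.far
  obtain ⟨ρ, p1, p2, p3⟩ := ((eventually_gt_atTop R₁).and ((eventually_gt_atTop R₂).and
    (eventually_gt_atTop (R0 M)))).exists
  have hW : ∀ x : M, ρ ≤ ‖px x‖ → x ∈ W := fun x hx => r2 x (p2.trans_le hx)
  refine end_of (T := fun i z => Ve Z (P366Z.gr (fe Z.D.g) (hl Z)) i (px z)) (C := A) (dom hZ hp)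
    Z.D.met (fun x => vP hZ hp) (fun x => vQ hZ hp) (fun x hx i => ?_)
    (fun x hx => symm_pt x ▸ (fx hZ hp (ch_mem x) (pt_W hx)).1) one_pos hq (by linarith [hZ.q0])
    p3.le (fun x hx => ?_) fun R hR => flux0 hZ hp p3 hW (by linarith [R0_ge M])
  · have he := ch_mem x
    have k := kv hZ hp he (pt_W (hW x hx))
    exact (C.c1_Vz (mt Z he) (smK Z he) k.cN k.cX (C.c1_gr (mt Z he) ((sm_hl Z).c2 _))
      i).congr_of_eventuallyEq (far_V Z (p3.trans_le hx) (Y := fun g => P366Z.gr g (hl Z))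
      (fun g g' y h => P366Z.gr_of_eq h _) i)
  obtain ⟨⟨⟨a1, a2⟩, a3⟩, a4, a5⟩ := r1 (px x) (p1.trans_le hx)
  have h2 := p3.trans_le hx
  have he := ch_mem x
  have hw := pt_W (hW x hx)
  have q := eqv Z h2
  have e1 : Z.lam x = C.la (fe Z.D.g) (fe Z.N) (Xe Z) (px x) := by
    rw [← pt_far h2.le, ← q.la, ← loc_pt Z.lam, loc_lam Z he]
  have e2 : ∀ i, Pm Z i x = C.Pv (fe Z.D.g) (fe Z.D.K) (fe Z.N) (Xe Z) i (px x) := fun i => by
    rw [← pt_far h2.le, ← q.pv, ← repV_pt (Pm Z), rep_P he (P366Z.diff2 (kv hZ hp he hw).cN)]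
  have e3 : ∀ i, Qm Z i x = C.Qv (fe Z.D.g) (fe Z.D.K) (fe Z.N) (Xe Z) i (px x) := fun i => by
    rw [← pt_far h2.le, ← q.qv, ← repV_pt (Qm Z), rep_Q hZ hp he hw]
  refine ⟨hW x hx, e1 ▸ a4, ?_, fun i => ⟨e2 i ▸ a1 i, e3 i ▸ a2 i, ?_⟩⟩
  · rw [dens_far h2.le]
    nth_rw 1 [← yp_px (x := x) (by linarith)]
    rw [norm_one, mul_one] at a5
    exact (le_abs_self _).trans a5
  · rw [e3, C.Qv]
    exact le_of_eq_of_le (congrArg _ (C.vz_lin _ i (by rfl)).symm) (a3 i)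

/-- **S1** -/
theorem s1 : S1 := by
  intro n M _ Z W hZ hp hd e he y hy i j
  have f := fun x (hx : x ∈ W) => symm_pt x ▸ fx hZ hp (ch_mem x) (pt_W hx)
  have h := abs_thm (dom hZ hp) Z.D.met (fun x => vP hZ hp) (fun x => vQ hZ hp)
    (fun x hx => (f x hx).1) (fun x hx => (f x hx).2.1) (fun x hx => (f x hx).2.2.1)
    (fun x hx => (f x hx).2.2.2.1) (fun R => by
      obtain ⟨A, a⟩ := hd1 hZ hp hd R
      obtain ⟨B, b⟩ := hd2 hZ hp R
      exact ⟨max A B, fun x hx hR => ⟨le_max_of_le_left (a x hx hR), le_max_of_le_right (b x hR hx)⟩⟩)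
    (hend hZ hp) _ hy
  have := tw_eq hZ hp he hy i j
  rw [(fx hZ hp he hy).2.2.2.2.1 h, Matrix.zero_apply, Dat.tw] at this
  linarith

end Vale.Agent.P366ST
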