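import Vale.Agent.P366ST.Wt
import Vale.Agent.P366M.End4

/-!
# P366ST: the integral argument
-/

open MeasureTheory Metric Filter Topology Set
open scoped ContDiff
open Vale.Agent.P366 Vale.Agent.P366.Stmt Vale.Agent.P366M

noncomputable section

namespace Vale.Agent.P366ST

variable {n : ℕ} {M : Type}

section L0

variable [Mf0 n M] {x : M} {X Y : Fin n → M → ℝ} {f : M → ℝ}

/-- the derivative of `u` along `X` -/
def dd (u : M → ℝ) (X : Fin n → M → ℝ) (x : M) : ℝ := ∑ i, P366M.pd i u x * X i x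

/-- vector fields of class `C^1` near a point -/
def VAt (X : Fin n → M → ℝ) (x : M) : Prop := ∀ i, ContDiffAt ℝ 1 (repV (ch x) X i) (pt x)

theorem VAt.dv (h : VAt X x) : DV X x := fun i => (h i).differentiableAt one_ne_zero

theorem VAt.congr (h : VAt X x) (e : ∀ i, Y i =ᶠ[𝓝 x] X i) : VAt Y x := fun i =>
  (h i).congr_of_eventuallyEq (repV_congr_pt e i)

theorem VAt.smul (hf : CAt 1 f x) (h : VAt X x) : VAt (fun i x => f x * X i x) x := fun i => by
  rw [repV_smul]; exact ContDiffAt.mul hf (h i)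

theorem VAt.add (h : VAt X x) (h' : VAt Y x) : VAt (fun i x => X i x + Y i x) x := fun i => by
  rw [repV_add]; exact ContDiffAt.add (h i) (h' i)

theorem VAt.sub (h : VAt X x) (h' : VAt Y x) : VAt (fun i x => X i x - Y i x) x := fun i => by
  rw [repV_sub]; exact ContDiffAt.sub (h i) (h' i)

theorem vAt_zero : VAt (fun _ _ => 0 : Fin n → M → ℝ) x := fun i =>
  (cv_zero _ (ch_mem x) i).contDiffAt

theorem cv_of_vAt (h : ∀ x, VAt X x) : CV 1 X :=
  cv_of one_le_oo fun x => ⟨_, ch_mem x, mem_ch x, h x⟩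

theorem vAt_of_cv (h : CV 1 X) (x : M) : VAt X x := fun i => (h _ (ch_mem x) i).contDiffAt

theorem dv_zero_of_ev {g : Fld n M} (e : ∀ i, X i =ᶠ[𝓝 x] fun _ => 0) : dv g X x = 0 := by
  rw [dv_congr (Y := fun i y => 0 * X i y) fun i => (e i).mono fun z hz => by
    simp only [hz, zero_mul], dv_const_mul, zero_mul]

theorem dv_wt {g : Fld n M} (hg : Met g) {a : ℝ → ℝ} (hf : DAt f x) (hX : DV X x)
    (ha : DifferentiableAt ℝ a (f x)) :
    dv g (fun i z => a (f z) * X i z) x = a (f x) * dv g X x + deriv a (f x) * dd f X x := by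
  rw [hg.dv_smul (ha.compM hf) hX, dd, Finset.mul_sum]
  simp only [pd_comp ha.hasDerivAt hf, mul_assoc]

end L0

variable [Mfs n M] {g : Fld n M} {U : Set M} {l : M → ℝ} {P Q : Fin n → M → ℝ} {x : M}

/-- the domain and the function which exhausts it -/
structure Dom (U : Set M) (l : M → ℝ) : Prop where
  op : IsOpen U
  cl : ∀ x ∈ U, CAt 1 l x
  pos : ∀ x ∈ U, 0 < l x
  cpt : ∀ t, 0 < t → ∀ R, IsCompact {x | x ∈ U ∧ t ≤ l x ∧ ‖px x‖ ≤ R}

theorem Dom.ev_out (h : Dom U l) {t : ℝ} (ht : 0 < t) (hx : x ∉ U) :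
    ∀ᶠ z in 𝓝 x, z ∈ U → l z < t := by
  filter_upwards [(h.cpt t ht (‖px x‖ + 1)).isClosed.isOpen_compl.mem_nhds fun k => hx k.1,
    ev_px_lt (lt_add_one ‖px x‖)] with z h1 h2 h3
  exact not_le.1 fun k => h1 ⟨h3, k, h2.le⟩

theorem Dom.cv (h : Dom U l) {t : ℝ} (ht : 0 < t) {W : Fin n → M → ℝ} (hW : ∀ x ∈ U, VAt W x)
    (e : ∀ x ∈ U, l x < t → ∀ i, W i x = 0) :
    CV 1 (fun i => U.indicator (W i)) ∧ (∀ x ∈ U, ∀ i, U.indicator (W i) =ᶠ[𝓝 x] W i) ∧
      ∀ x ∉ U, ∀ i, U.indicator (W i) =ᶠ[𝓝 x] fun _ => 0 := by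
  have h1 : ∀ x ∈ U, ∀ i, U.indicator (W i) =ᶠ[𝓝 x] W i := fun x hx i =>
    Eventually.mono (h.op.mem_nhds hx) fun z hz => indicator_of_mem hz _
  have h2 : ∀ x ∉ U, ∀ i, U.indicator (W i) =ᶠ[𝓝 x] fun _ => 0 := fun x hx i =>
    (h.ev_out ht hx).mono fun z hz => by
      by_cases k : z ∈ U
      · rw [indicator_of_mem k, e z k (hz k)]
      · exact indicator_of_notMem k _
  refine ⟨cv_of_vAt fun x => ?_, h1, h2⟩
  by_cases hx : x ∈ U
  exacts [(hW x hx).congr (h1 x hx), vAt_zero.congr (h2 x hx)]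

/-- the cut-off function in the values of `l` -/
def et (τ s : ℝ) : ℝ := Real.smoothTransition (s / τ - 1)

theorem cd_et (τ : ℝ) : ContDiff ℝ 1 (et τ) :=
  Real.smoothTransition.contDiff.comp ((contDiff_id.div_const τ).sub contDiff_const)

theorem et_zero {τ s : ℝ} (hτ : 0 < τ) (h : s ≤ τ) : et τ s = 0 :=
  Real.smoothTransition.zero_of_nonpos (by rw [sub_nonpos, div_le_one hτ]; exact h)

theorem et_one {τ s : ℝ} (hτ : 0 < τ) (h : 2 * τ ≤ s) : et τ s = 1 :=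
  Real.smoothTransition.one_of_one_le (by rw [le_sub_iff_add_le, le_div_iff₀ hτ]; linarith)

theorem et_nonneg (τ s : ℝ) : 0 ≤ et τ s := Real.smoothTransition.nonneg _

theorem deriv_et_far {τ s : ℝ} (hτ : 0 < τ) (h : 2 * τ < s) : deriv (et τ) s = 0 := by
  rw [EventuallyEq.deriv_eq (f := fun _ => 1) ((lt_mem_nhds h).mono fun z hz => et_one hτ hz.le),
    deriv_const]

theorem deriv_et : ∃ C, 0 ≤ C ∧ ∀ τ s : ℝ, 0 < τ → 0 ≤ s → s ≤ 2 * τ → |deriv (et τ) s| ≤ C / τ := by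
  obtain ⟨C, hC⟩ := (isCompact_Icc (a := (-1 : ℝ)) (b := 1)).exists_bound_of_continuousOn
    ((Real.smoothTransition.contDiff (n := 1)).continuous_deriv le_rfl).continuousOn
  refine ⟨C, (norm_nonneg _).trans (hC 0 (by simp)), fun τ s hτ h0 h => ?_⟩
  have d := (((Real.smoothTransition.contDiff (n := 1)).differentiable one_ne_zero
    (s / τ - 1)).hasDerivAt.comp s (((hasDerivAt_id' s).div_const τ).sub_const 1)).deriv
  rw [show deriv (et τ) s = _ from d, abs_mul, abs_of_pos (by positivity : 0 < 1 / τ), mul_one_div]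
  refine div_le_div_of_nonneg_right (hC _ ⟨?_, ?_⟩) hτ.le
  · linarith [div_nonneg h0 hτ.le]
  · rw [sub_le_iff_le_add, div_le_iff₀ hτ]; linarith

theorem Dom.cont_dv (h : Dom U l) (hg : Met g) (hQ : ∀ x ∈ U, VAt Q x) (hx : x ∈ U) :
    ContinuousAt (dv g Q) x := by
  have h0 := h.pos x hx
  obtain ⟨h1, h2, -⟩ := h.cv (t := l x / 3) (by positivity)
    (W := fun i z => et (l x / 3) (l z) * Q i z)
    (fun z hz => VAt.smul ((cd_et _).contDiffAt.compM (h.cl z hz)) (hQ z hz))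
    fun z _ k i => by rw [et_zero (by positivity) k.le, zero_mul]
  refine (hg.cont_dv h1).continuousAt.congr ?_
  have h3 : ∀ᶠ z in 𝓝 x, 2 * (l x / 3) < l z :=
    (h.cl x hx).continuousAt.eventually (lt_mem_nhds (by linarith))
  filter_upwards [(eventually_all.2 (h2 x hx)).eventually_nhds, h3.eventually_nhds] with z a b
  refine dv_congr fun i => ?_
  filter_upwards [a, b] with w a b
  rw [a i, et_one (by positivity) b.le, one_mul]

theorem Dom.meas (h : Dom U l) (s R : ℝ) : MeasurableSet {x | x ∈ U ∧ l x ≤ s ∧ ‖px x‖ ≤ R} := by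
  have h1 : IsOpen (U ∩ l ⁻¹' Ioi s) := ContinuousOn.isOpen_inter_preimage
    (fun x hx => (h.cl x hx).continuousAt.continuousWithinAt) h.op isOpen_Ioi
  convert (h.op.measurableSet.diff h1.measurableSet).inter (meas_px_le R) using 1
  ext x
  simp only [mem_ofPred_eq, mem_inter_iff, Set.mem_sdiff, mem_preimage, mem_Ioi, not_and, not_lt]
  tauto

theorem Dom.small (h : Dom U l) (hg : Met g) (R : ℝ) :
    Tendsto (fun s => (vol g).real {x | x ∈ U ∧ l x ≤ s ∧ ‖px x‖ ≤ R}) (𝓝[>] 0) (𝓝 0) := by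
  have := hg.locFin
  have h1 := tendsto_measure_biInter_gt (μ := vol g) (a := (0 : ℝ))
    (s := fun s => {x | x ∈ U ∧ l x ≤ s ∧ ‖px x‖ ≤ R})
    (fun s _ => (h.meas s R).nullMeasurableSet) (fun a b _ hab x hx => ⟨hx.1, hx.2.1.trans hab,
      hx.2.2⟩) ⟨1, one_pos, ((measure_mono fun x hx => hx.2.2).trans_lt
        (isCompact_px M R).measure_lt_top).ne⟩
  have h2 : ⋂ s > (0 : ℝ), {x | x ∈ U ∧ l x ≤ s ∧ ‖px x‖ ≤ R} = ∅ :=
    eq_empty_of_forall_notMem fun x hx => by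
      have k := mem_iInter₂.1 hx
      have k1 := h.pos x (k 1 one_pos).1
      linarith [(k (l x / 2) (by positivity)).2.1]
  rw [h2, measure_empty] at h1
  exact (ENNReal.tendsto_toReal ENNReal.zero_ne_top).comp h1

theorem lin_bd {ψ : ℝ → ℝ} (h : ContDiffAt ℝ 1 ψ 0) (h0 : ψ 0 = 0) :
    ∃ C, 0 ≤ C ∧ ∀ᶠ s in 𝓝 (0 : ℝ), |ψ s| ≤ C * |s| := by
  obtain ⟨C, hC, k⟩ := (h.differentiableAt one_ne_zero).isBigO_sub.exists_pos
  exact ⟨C, hC.le, by simpa [h0] using k.bound⟩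

/-- the behaviour in the ends -/
def End (g : Fld n M) (U : Set M) (l : M → ℝ) (P Q : Fin n → M → ℝ) : Prop :=
  ∃ L Φ R₁ : ℝ, 0 < L ∧ (∀ x, R₁ ≤ ‖px x‖ → x ∈ U ∧ L / 2 ≤ l x) ∧
    ∀ ψ χ : ℝ → ℝ, (∀ s, 0 ≤ s → ContDiffAt ℝ 1 ψ s ∧ ContDiffAt ℝ 1 χ s) → ∀ η, 0 < η →
      ∀ᶠ R in atTop, |∫ x, dd (cut R) (fun i z => ψ (l z) * Q i z + χ (l z) * P i z) x ∂vol g| ≤
        |χ L| * Φ + η

theorem abs_thm (h : Dom U l) (hg : Met g) (hP : ∀ x ∈ U, VAt P x) (hQ : ∀ x ∈ U, VAt Q x)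
    (dP : ∀ x ∈ U, dv g P x = 0) (hG : ∀ x ∈ U, 0 ≤ dv g Q x)
    (hB : ∀ x ∈ U, dd l Q x ≤ dd l P x)
    (hc : ∀ x ∈ U, dd l Q x ^ 2 ≤ l x * dv g Q x * (dd l P x - dd l Q x))
    (hd : ∀ R, ∃ C, ∀ x ∈ U, ‖px x‖ ≤ R → |dd l Q x| ≤ C ∧ |dd l P x| ≤ C)
    (hE : End g U l P Q) : ∀ x ∈ U, dv g Q x = 0 := by
  intro x₀ hx₀
  by_contra hne
  have γ0 : 0 < dv g Q x₀ := lt_of_le_of_ne (hG x₀ hx₀) (Ne.symm hne)
  have t0 := h.pos x₀ hx₀
  have := hg.locFin
  have := hg.openPos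
  obtain ⟨K, k1, k2, k3⟩ := local_compact_nhds (x := x₀)
    (n := {z | z ∈ U ∧ l x₀ / 2 < l z ∧ dv g Q x₀ / 2 < dv g Q z ∧ ‖px z‖ < ‖px x₀‖ + 1})
    (by
      filter_upwards [h.op.mem_nhds hx₀,
        (h.cl x₀ hx₀).continuousAt.eventually (lt_mem_nhds (half_lt_self t0)),
        (h.cont_dv hg hQ hx₀).eventually (lt_mem_nhds (half_lt_self γ0)),
        ev_px_lt (lt_add_one ‖px x₀‖)] with z a b c d using ⟨a, b, c, d⟩)
  have v0 : 0 < (vol g).real K :=
    ENNReal.toReal_pos (Measure.measure_pos_of_mem_nhds _ k1).ne' k3.measure_lt_top.ne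
  obtain ⟨L, Φ, R₁, hL, e1, e2⟩ := hE
  obtain ⟨m, hm⟩ : ∃ m, m = min 1 (l x₀ / 2) / 4 * (dv g Q x₀ / 2) := ⟨_, rfl⟩
  have m0 : 0 < m := by rw [hm]; positivity
  obtain ⟨ψ, χ, w1, w2, w3, w4, w5⟩ := weights (t := l x₀ / 2) (by positivity) hL
    (η := m * (vol g).real K / 4 / (|Φ| + 1)) (by positivity)
  obtain ⟨R, r1, r2, r3⟩ := ((e2 ψ χ w1 (m * (vol g).real K / 4) (by positivity)).and
    ((eventually_ge_atTop R₁).and (eventually_ge_atTop (‖px x₀‖ + 1)))).exists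
  have r0 : 0 < R := by linarith [norm_nonneg (px x₀)]
  obtain ⟨C₁, c1⟩ := hd (2 * R)
  obtain ⟨C₂, c20, c2⟩ := deriv_et
  obtain ⟨C₃, c30, c3⟩ := lin_bd (w1 0 le_rfl).1 w2
  obtain ⟨C₄, c40, c4⟩ := lin_bd (w1 0 le_rfl).2 w3
  obtain ⟨C, hC⟩ : ∃ C, C = C₂ * (2 * (C₃ + C₄) * |C₁|) := ⟨_, rfl⟩
  have C0 : 0 ≤ C := by rw [hC]; positivity
  obtain ⟨s₀, s0, s1⟩ := Metric.eventually_nhds_iff.1 (c3.and c4)
  obtain ⟨s, ⟨⟨p1, p2⟩, p3⟩, p0⟩ := (((((h.small hg (2 * R)).const_mul C).eventually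
    (gt_mem_nhds (a := m * (vol g).real K / 4) (by simpa using by positivity))).and
      ((gt_mem_nhds (a := s₀) s0).filter_mono nhdsWithin_le_nhds)).and
      ((gt_mem_nhds (a := min (L / 2) (l x₀ / 2)) (by positivity)).filter_mono
        nhdsWithin_le_nhds) |>.and self_mem_nhdsWithin).exists
  replace p0 : 0 < s / 2 := half_pos p0
  have ca : ∀ z ∈ U, ContDiffAt ℝ 1 (fun r => et (s / 2) r * ψ r) (l z) := fun z hz =>
    (cd_et _).contDiffAt.mul (w1 _ (h.pos z hz).le).1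
  have cb : ∀ z ∈ U, ContDiffAt ℝ 1 (fun r => et (s / 2) r * χ r) (l z) := fun z hz =>
    (cd_et _).contDiffAt.mul (w1 _ (h.pos z hz).le).2
  obtain ⟨a1, a2, a3⟩ := h.cv p0
    (W := fun i z => et (s / 2) (l z) * ψ (l z) * Q i z + et (s / 2) (l z) * χ (l z) * P i z)
    (fun z hz => (VAt.smul ((ca z hz).compM (h.cl z hz)) (hQ z hz)).add
      (VAt.smul ((cb z hz).compM (h.cl z hz)) (hP z hz)))
    fun z _ k i => by rw [et_zero p0 k.le]; ring
  have I := hg.ibp_dv' (sm_cut R).llip (supp_cut r0) a1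
  have I1 : ∀ z, ∑ i, P366M.pd i (cut R) z * U.indicator (fun z => et (s / 2) (l z) * ψ (l z) *
      Q i z + et (s / 2) (l z) * χ (l z) * P i z) z =
      dd (cut R) (fun i z => ψ (l z) * Q i z + χ (l z) * P i z) z := fun z => by
    unfold dd
    by_cases hz : ‖px z‖ < R
    · simp only [pd_cut_in hz, zero_mul]
    · obtain ⟨b1, b2⟩ := e1 z (r2.trans (not_lt.1 hz))
      simp only [indicator_of_mem b1, et_one p0 (s := l z)
        (by linarith [min_le_left (L / 2) (l x₀ / 2)]), one_mul]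
  simp only [I1] at I
  have mA := h.meas s (2 * R)
  have fA : vol g {x | x ∈ U ∧ l x ≤ s ∧ ‖px x‖ ≤ 2 * R} ≠ ⊤ :=
    ((measure_mono fun x hx => hx.2.2).trans_lt (isCompact_px M _).measure_lt_top).ne
  have i1 : Integrable (K.indicator fun _ => m) (vol g) :=
    (integrable_indicator_iff k3.measurableSet).2 (integrableOn_const k3.measure_lt_top.ne)
  have i2 : Integrable ({x | x ∈ U ∧ l x ≤ s ∧ ‖px x‖ ≤ 2 * R}.indicator fun _ => C) (vol g) :=
    (integrable_indicator_iff mA).2 (integrableOn_const fA)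
  have I2 := integral_mono (i1.sub i2) (hg.integrable_supp
    ((sm_cut R).cont.mul (hg.cont_dv a1)) (supp_cut r0).mul_right) fun z => ?_
  · simp only [Pi.sub_apply, Pi.mul_apply] at I2
    rw [integral_sub i1 i2, integral_indicator_const _ k3.measurableSet,
      integral_indicator_const _ mA, I, smul_eq_mul, smul_eq_mul] at I2
    have b1 : |χ L| * Φ ≤ m * (vol g).real K / 4 := by
      refine (mul_le_mul_of_nonneg_left (show Φ ≤ |Φ| + 1 by linarith [le_abs_self Φ])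
        (abs_nonneg _)).trans ?_
      rwa [← le_div_iff₀ (by positivity)]
    nlinarith [(abs_le.1 r1).1, mul_pos m0 v0]
  simp only [Pi.sub_apply, Pi.mul_apply]
  have n2 : 0 ≤ {x | x ∈ U ∧ l x ≤ s ∧ ‖px x‖ ≤ 2 * R}.indicator (fun _ => C) z :=
    indicator_nonneg (fun _ _ => C0) z
  by_cases hz : z ∈ U
  swap
  · rw [dv_zero_of_ev (a3 z hz), indicator_of_notMem fun k => hz (k2 k).1]
    linarith
  have lz := h.pos z hz
  have dl := (h.cl z hz).differentiableAt one_ne_zero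
  have da := (ca z hz).differentiableAt one_ne_zero
  have db := (cb z hz).differentiableAt one_ne_zero
  have de := (cd_et (s / 2)).differentiable one_ne_zero (l z)
  rw [dv_congr (a2 z hz), hg.dv_add (DV.smul (da.compM dl) (hQ z hz).dv)
    (DV.smul (db.compM dl) (hP z hz).dv), dv_wt hg dl (hQ z hz).dv da, dv_wt hg dl (hP z hz).dv db,
    dP z hz, deriv_fun_mul de ((w1 _ lz.le).1.differentiableAt one_ne_zero),
    deriv_fun_mul de ((w1 _ lz.le).2.differentiableAt one_ne_zero)]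
  obtain ⟨u1, u2⟩ := w5 _ lz _ _ _ (hG z hz) (sub_nonneg.2 (hB z hz)) (hc z hz)
  obtain ⟨D, hD⟩ : ∃ D, D = ψ (l z) * dv g Q z + (deriv ψ (l z) + deriv χ (l z)) * dd l Q z +
    deriv χ (l z) * (dd l P z - dd l Q z) := ⟨_, rfl⟩
  rw [← hD] at u1 u2
  rw [show et (s / 2) (l z) * ψ (l z) * dv g Q z + (deriv (et (s / 2)) (l z) * ψ (l z) +
    et (s / 2) (l z) * deriv ψ (l z)) * dd l Q z + (et (s / 2) (l z) * χ (l z) * 0 +
    (deriv (et (s / 2)) (l z) * χ (l z) + et (s / 2) (l z) * deriv χ (l z)) * dd l P z) =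
    et (s / 2) (l z) * D + deriv (et (s / 2)) (l z) * (ψ (l z) * dd l Q z + χ (l z) * dd l P z) by
      rw [hD]; ring]
  have z0 := cut_nonneg R z
  have z1 := cut_le_one R z
  by_cases hK : z ∈ K
  · obtain ⟨-, b2, b3, b4⟩ := k2 hK
    have b5 : 2 * (s / 2) < l z := by linarith [min_le_right (L / 2) (l x₀ / 2)]
    rw [indicator_of_mem hK, cut_one (by linarith), et_one p0 b5.le, deriv_et_far p0 b5]
    have b6 := mul_le_mul_of_nonneg_left b3.le (show 0 ≤ min 1 (l x₀ / 2) / 4 by positivity)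
    linarith [u2 b2.le]
  rw [indicator_of_notMem hK]
  have b1 := mul_nonneg (et_nonneg (s / 2) (l z)) u1
  by_cases b2 : 2 * (s / 2) < l z
  · rw [deriv_et_far p0 b2, zero_mul, add_zero]
    linarith [mul_nonneg z0 b1]
  by_cases b3 : 2 * R ≤ ‖px z‖
  · rw [cut_zero r0 b3]; linarith
  replace b2 := not_lt.1 b2
  rw [indicator_of_mem (show z ∈ {x | x ∈ U ∧ l x ≤ s ∧ ‖px x‖ ≤ 2 * R} from
    ⟨hz, by linarith, (not_le.1 b3).le⟩)]
  obtain ⟨q1, q2⟩ := c1 z hz (not_le.1 b3).le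
  obtain ⟨q3, q4⟩ := s1 (y := l z) (by rw [Real.dist_eq, sub_zero, abs_of_pos lz]; linarith)
  rw [abs_of_pos lz] at q3 q4
  have q5 : |ψ (l z) * dd l Q z + χ (l z) * dd l P z| ≤ s / 2 * (2 * (C₃ + C₄) * |C₁|) := by
    refine (abs_add_le _ _).trans ?_
    rw [abs_mul, abs_mul]
    have y1 := mul_le_mul (q3.trans (mul_le_mul_of_nonneg_left b2 c30))
      (q1.trans (le_abs_self _)) (abs_nonneg _) (by positivity)
    have y2 := mul_le_mul (q4.trans (mul_le_mul_of_nonneg_left b2 c40))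
      (q2.trans (le_abs_self _)) (abs_nonneg _) (by positivity)
    linarith
  have q6 : |deriv (et (s / 2)) (l z) * (ψ (l z) * dd l Q z + χ (l z) * dd l P z)| ≤ C := by
    rw [abs_mul]
    refine (mul_le_mul (c2 _ _ p0 lz.le b2) q5 (abs_nonneg _) (by positivity)).trans_eq ?_
    have : s ≠ 0 := by intro k; simp [k] at p0
    rw [hC]; field_simp
  nlinarith [(abs_le.1 q6).1, mul_nonneg z0 b1, mul_nonneg C0 (sub_nonneg.2 z1)]

end Vale.Agent.P366ST
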