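import Mathlib.Analysis.Matrix.Order
import Mathlib.Algebra.QuadraticDiscriminant

/-!
# P366ST: the pointwise algebra
-/

open Matrix
open scoped MatrixOrder

noncomputable section

namespace Vale.Agent.P366ST

variable {n : ℕ} {G H S A B C K R : Matrix (Fin n) (Fin n) ℝ} {X P Z u v : Fin n → ℝ} {N : ℝ}

theorem tp_dot (A : Matrix (Fin n) (Fin n) ℝ) (u v : Fin n → ℝ) : u ⬝ᵥ Aᵀ *ᵥ v = v ⬝ᵥ A *ᵥ u := by
  rw [dotProduct_mulVec, vecMul_transpose, dotProduct_comm]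

theorem sy_dot (hS : Sᵀ = S) (u v : Fin n → ℝ) : u ⬝ᵥ S *ᵥ v = v ⬝ᵥ S *ᵥ u := by
  rw [← tp_dot, hS]

theorem sk_dot (hA : Aᵀ = -A) (u v : Fin n → ℝ) : u ⬝ᵥ A *ᵥ v = -(v ⬝ᵥ A *ᵥ u) := by
  rw [← tp_dot, hA, neg_mulVec, dotProduct_neg]

theorem sk_self (hA : Aᵀ = -A) (u : Fin n → ℝ) : u ⬝ᵥ A *ᵥ u = 0 := by
  linarith [sk_dot hA u u]

theorem vv_mul (u v w : Fin n → ℝ) : vecMulVec u v *ᵥ w = (v ⬝ᵥ w) • u := by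
  rw [vecMulVec_mulVec]; ext i; simp [mul_comm]

theorem tr_vv (B : Matrix (Fin n) (Fin n) ℝ) (u v : Fin n → ℝ) :
    trace (B * vecMulVec u v) = v ⬝ᵥ B *ᵥ u := by
  rw [mul_vecMulVec, trace_vecMulVec, dotProduct_comm]

theorem tr_sk (hA : Aᵀ = -A) (hS : Sᵀ = S) : trace (A * S) = 0 := by
  have h := trace_transpose (A * S)
  rw [transpose_mul, hA, hS, Matrix.mul_neg, trace_neg, trace_mul_comm] at h
  linarith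

theorem cs_dot (hH : Hᵀ = H) (h0 : ∀ u, 0 ≤ u ⬝ᵥ H *ᵥ u) (u v : Fin n → ℝ) :
    (u ⬝ᵥ H *ᵥ v) ^ 2 ≤ (u ⬝ᵥ H *ᵥ u) * (v ⬝ᵥ H *ᵥ v) := by
  have := discrim_le_zero (a := u ⬝ᵥ H *ᵥ u) (b := 2 * (u ⬝ᵥ H *ᵥ v)) (c := v ⬝ᵥ H *ᵥ v) fun t => by
    have h := h0 (t • u + v)
    simp only [mulVec_add, mulVec_smul, add_dotProduct, dotProduct_add, smul_dotProduct,
      dotProduct_smul, smul_eq_mul, sy_dot hH v u] at h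
    linarith
  rw [discrim] at this
  linarith

theorem nsq (hH : H.PosDef) (B : Matrix (Fin n) (Fin n) ℝ) :
    0 ≤ trace (H * B * H * Bᵀ) ∧ (trace (H * B * H * Bᵀ) = 0 → B = 0) := by
  obtain ⟨L, hL, rfl⟩ := CStarAlgebra.isStrictlyPositive_iff_eq_star_mul_self.mp
    hH.isStrictlyPositive
  have e : trace (star L * L * B * (star L * L) * Bᵀ) = trace (L * B * Lᴴ * (L * B * Lᴴ)ᴴ) := by
    simp only [star_eq_conjTranspose,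
      conjTranspose_eq_transpose_of_trivial, Matrix.mul_assoc, transpose_mul, transpose_transpose]
    rw [trace_mul_comm]
    simp only [Matrix.mul_assoc]
  rw [e]
  refine ⟨(posSemidef_self_mul_conjTranspose _).trace_nonneg, fun h => ?_⟩
  rw [trace_mul_conjTranspose_self_eq_zero_iff] at h
  have h2 : IsUnit Lᴴ := hL.star
  rwa [h2.mul_left_eq_zero, hL.mul_right_eq_zero] at h

/-- the twist tensor -/
def tw (G A : Matrix (Fin n) (Fin n) ℝ) (N : ℝ) (X P : Fin n → ℝ) : Matrix (Fin n) (Fin n) ℝ :=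
  N • A + vecMulVec (G *ᵥ X) (G *ᵥ P) - vecMulVec (G *ᵥ P) (G *ᵥ X)

theorem tw_sk (hA : Aᵀ = -A) : (tw G A N X P)ᵀ = -tw G A N X P := by
  simp only [tw, transpose_sub, transpose_add, transpose_smul, hA, transpose_vecMulVec, smul_neg]
  abel

theorem tw_mul (hG : Gᵀ = G) (Z : Fin n → ℝ) : tw G A N X P *ᵥ Z =
    N • A *ᵥ Z + (P ⬝ᵥ G *ᵥ Z) • G *ᵥ X - (X ⬝ᵥ G *ᵥ Z) • G *ᵥ P := by
  simp only [tw, sub_mulVec, add_mulVec, smul_mulVec, vv_mul, dotProduct_comm (G *ᵥ _) Z,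
    sy_dot hG Z]

theorem pt_alg (hG : Gᵀ = G) (hH : H.PosDef) (HG : H * G = 1) (hA : Aᵀ = -A) (hN : 0 < N)
    {l : ℝ} (hl : l = N ^ 2 - X ⬝ᵥ G *ᵥ X) (l0 : 0 < l) {w Y : Fin n → ℝ}
    (hw : w = N • G *ᵥ P - A *ᵥ X) (hY : Y = tw G A N X P *ᵥ X) {D c e : ℝ}
    (hD : D = trace (H * tw G A N X P * H * Aᵀ) / l - 2 * (w ⬝ᵥ H *ᵥ Y) / l ^ 2)
    (hc : c = 2 * (w ⬝ᵥ H *ᵥ Y) / l) (he : e = 2 * (w ⬝ᵥ P)) :
    0 ≤ D ∧ c ≤ e ∧ c ^ 2 ≤ l * D * (e - c) ∧ (D = 0 → tw G A N X P = 0) ∧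
      e - c = 2 * N * (w ⬝ᵥ H *ᵥ w - (P ⬝ᵥ G *ᵥ X) ^ 2) / l := by
  have sH : Hᵀ = H := by simpa using hH.isHermitian.eq
  have h0 : ∀ u, 0 ≤ u ⬝ᵥ H *ᵥ u := fun u => by
    simpa using hH.posSemidef.dotProduct_mulVec_nonneg u
  have GH : G * H = 1 := mul_eq_one_comm.1 HG
  have k1 : ∀ v, H *ᵥ G *ᵥ v = v := fun v => by rw [mulVec_mulVec, HG, one_mulVec]
  have k2 : ∀ u v, (G *ᵥ u) ⬝ᵥ H *ᵥ v = u ⬝ᵥ v := fun u v => by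
    rw [sy_dot sH, k1, dotProduct_comm]
  have sM : (tw G A N X P)ᵀ = -tw G A N X P := tw_sk hA
  obtain ⟨m0, m1⟩ := nsq hH (tw G A N X P)
  have e1 : N * trace (H * tw G A N X P * H * Aᵀ) =
      trace (H * tw G A N X P * H * (tw G A N X P)ᵀ) + 2 * (P ⬝ᵥ Y) := by
    have : (tw G A N X P)ᵀ = N • Aᵀ + vecMulVec (G *ᵥ P) (G *ᵥ X) -
        vecMulVec (G *ᵥ X) (G *ᵥ P) := by
      simp only [tw, transpose_sub, transpose_add, transpose_smul, transpose_vecMulVec]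
    rw [this, hY]
    simp only [Matrix.mul_sub, Matrix.mul_add, Matrix.mul_smul, trace_sub, trace_add, trace_smul,
      tr_vv, ← mulVec_mulVec, k1, k2, smul_eq_mul, sk_dot sM X P]
    ring
  have e2 : N • w = l • G *ᵥ P - Y + (P ⬝ᵥ G *ᵥ X) • G *ᵥ X := by
    rw [hw, hY, tw_mul hG, hl]
    ext i
    simp only [Pi.smul_apply, Pi.sub_apply, Pi.add_apply, smul_eq_mul]
    ring
  have e3 : X ⬝ᵥ Y = 0 := by rw [hY, sk_self sM]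
  have e4 : X ⬝ᵥ w = N * (P ⬝ᵥ G *ᵥ X) := by
    rw [hw, dotProduct_sub, sk_self hA, dotProduct_smul, sy_dot hG, sub_zero, smul_eq_mul]
  have e5 := congrArg (· ⬝ᵥ H *ᵥ Y) e2
  have e6 := congrArg (· ⬝ᵥ H *ᵥ w) e2
  simp only [add_dotProduct, sub_dotProduct, smul_dotProduct, smul_eq_mul, k2, e3, e4,
    sy_dot sH Y w, dotProduct_comm P w] at e5 e6
  have c1 := cs_dot sH h0 (w - (P ⬝ᵥ G *ᵥ X / N) • G *ᵥ X) Y
  have c2 := h0 (w - (P ⬝ᵥ G *ᵥ X / N) • G *ᵥ X)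
  have c3 := h0 Y
  have e7 : (w - (P ⬝ᵥ G *ᵥ X / N) • G *ᵥ X) ⬝ᵥ H *ᵥ (w - (P ⬝ᵥ G *ᵥ X / N) • G *ᵥ X) =
      w ⬝ᵥ H *ᵥ w - (P ⬝ᵥ G *ᵥ X) ^ 2 - l * (P ⬝ᵥ G *ᵥ X / N) ^ 2 := by
    simp only [mulVec_sub, mulVec_smul, sub_dotProduct, dotProduct_sub, smul_dotProduct,
      dotProduct_smul, smul_eq_mul, k1, k2, e4, dotProduct_comm w X, dotProduct_comm (G *ᵥ X) X, hl]
    field_simp
  rw [e7] at c1 c2
  simp only [sub_dotProduct, smul_dotProduct, smul_eq_mul, k2, e3, mul_zero, sub_zero] at c1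
  have c4 : 0 ≤ l * (P ⬝ᵥ G *ᵥ X / N) ^ 2 := by positivity
  generalize l * (P ⬝ᵥ G *ᵥ X / N) ^ 2 = r at c1 c2 c4
  generalize trace (H * tw G A N X P * H * (tw G A N X P)ᵀ) = m at m0 m1 e1
  generalize trace (H * tw G A N X P * H * Aᵀ) = t at e1 hD
  generalize Y ⬝ᵥ H *ᵥ Y = y at c1 c3 e5
  generalize w ⬝ᵥ H *ᵥ Y = a at c1 e5 e6 hD hc
  have f1 : D = (l * m + 2 * y) / (N * l ^ 2) := by
    rw [hD]
    field_simp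
    linear_combination l * e1 - 2 * e5
  have f2 : e - c = 2 * N * (w ⬝ᵥ H *ᵥ w - (P ⬝ᵥ G *ᵥ X) ^ 2) / l := by
    rw [he, hc]
    field_simp
    linear_combination -e6
  have b0 : 0 ≤ w ⬝ᵥ H *ᵥ w - (P ⬝ᵥ G *ᵥ X) ^ 2 := by linarith
  refine ⟨by rw [f1]; positivity, by rw [← sub_nonneg, f2]; positivity, ?_, fun h => m1 ?_, f2⟩
  · rw [f2, f1, hc]
    generalize w ⬝ᵥ H *ᵥ w - (P ⬝ᵥ G *ᵥ X) ^ 2 = b at b0 c1
    rw [show l * ((l * m + 2 * y) / (N * l ^ 2)) * (2 * N * b / l) =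
      2 * (l * m + 2 * y) * b / l ^ 2 by field_simp, div_pow]
    refine div_le_div_of_nonneg_right ?_ (by positivity)
    nlinarith [mul_nonneg c4 c3, mul_nonneg (mul_nonneg l0.le m0) b0]
  · rw [f1, div_eq_zero_iff] at h
    rcases h with h | h
    · nlinarith [mul_nonneg l0.le m0]
    · exact absurd h (by positivity)

theorem z_alg (hG : Gᵀ = G) (hH : Hᵀ = H) (GH : G * H = 1) (hK : Kᵀ = K) {T : ℝ}
    (kid : G * C + (G * C)ᵀ = (-2 * N) • K) {d V : Fin n → ℝ} (hP : G *ᵥ P = d + K *ᵥ X)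
    (hV : G *ᵥ V = N • (R *ᵥ X + T • K *ᵥ X - (2 : ℝ) • K *ᵥ H *ᵥ K *ᵥ X) - Cᵀ *ᵥ K *ᵥ X) :
    -N * (Z ⬝ᵥ R *ᵥ X - Z ⬝ᵥ d * T + d ⬝ᵥ H *ᵥ K *ᵥ Z) - d ⬝ᵥ (C *ᵥ Z + N • H *ᵥ K *ᵥ Z) +
      (P ⬝ᵥ G *ᵥ Z * (-N * T) + V ⬝ᵥ G *ᵥ Z) - (C *ᵥ P) ⬝ᵥ G *ᵥ Z = 0 := by
  obtain rfl : d = G *ᵥ P - K *ᵥ X := by rw [hP]; abel
  have k1 : ∀ v, H *ᵥ G *ᵥ v = v := fun v => by
    rw [mulVec_mulVec, mul_eq_one_comm.1 GH, one_mulVec]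
  have k2 : ∀ u v, (G *ᵥ u) ⬝ᵥ H *ᵥ v = u ⬝ᵥ v := fun u v => by
    rw [sy_dot hH, k1, dotProduct_comm]
  have e1 := congrArg (fun B => P ⬝ᵥ B *ᵥ Z) kid
  simp only [add_mulVec, dotProduct_add, tp_dot, smul_mulVec, dotProduct_smul, smul_eq_mul,
    ← mulVec_mulVec] at e1
  have e2 : Z ⬝ᵥ K *ᵥ H *ᵥ K *ᵥ X = (K *ᵥ X) ⬝ᵥ H *ᵥ K *ᵥ Z := by
    rw [sy_dot hK, dotProduct_comm, sy_dot hH]
  have e3 : (G *ᵥ P) ⬝ᵥ C *ᵥ Z = P ⬝ᵥ G *ᵥ C *ᵥ Z := by rw [sy_dot hG P, dotProduct_comm]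
  rw [sy_dot hG V, hV, sy_dot hG (C *ᵥ P), sy_dot hG P]
  simp only [dotProduct_sub, dotProduct_add, sub_dotProduct, dotProduct_smul, smul_eq_mul, tp_dot,
    k2, e2, e3]
  linear_combination -e1

end Vale.Agent.P366ST
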