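import Vale.Agent.P366ST.Alg
import Vale.Agent.P366XR.Cov

/-!
# P366ST: the divergence identities in a chart
-/

open Filter Topology Matrix
open scoped ContDiff
open Vale.Agent.P366.Stmt Vale.Agent.P366XR
open Vale.Agent.P366Z hiding dd
open Vale.Agent.P366Y.C (rc)
open Vale.Agent.P366P (cd)

noncomputable section

namespace Vale.Agent.P366ST.C

variable {n : ℕ} {g K : Field n} {N f : E n → ℝ} {X Z : Vf n} {x : E n}

/-- the vector field of `p = dN + K X` -/
def Pv (g K : Field n) (N : E n → ℝ) (X : Vf n) : Vf n :=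
  fun i y => gr g N i y + hi g (lo K X) i y

/-- the skew part of the covariant derivative of `X` -/
def Am (g K : Field n) (N : E n → ℝ) (X : Vf n) (y : E n) : Mx n :=
  -(mat g y * Dm g X y + N y • mat K y)

/-- the twist -/
def Tw (g K : Field n) (N : E n → ℝ) (X : Vf n) (y : E n) : Mx n :=
  tw (mat g y) (Am g K N X y) (N y) (ev X y) (ev (Pv g K N X) y)

/-- the function `N² - |X|²` -/
def la (g : Field n) (N : E n → ℝ) (X : Vf n) (y : E n) : ℝ := N y ^ 2 - bl g X X y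

/-- the twist applied to a vector field -/
def Vz (g K : Field n) (N : E n → ℝ) (X Z : Vf n) : Vf n := fun i y =>
  -N y * (nab g Z X i y + N y * hi g (lo K Z) i y) + bl g (Pv g K N X) Z y * X i y -
    bl g X Z y * Pv g K N X i y

/-- vacuum Killing initial data at a point -/
structure KV (g K : Field n) (N : E n → ℝ) (X : Vf n) (x : E n) : Prop where
  cN : ContDiffAt ℝ 2 N x
  cX : C2 X x
  kid : ∀ᶠ y in 𝓝 x, Kid g K N X y
  ee : ∀ i j, EE g K N X x i j = 0
  mo : ∀ j, mom g K j x = 0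
  mu : mu g K x = 0

theorem hg_mul (hg : Met g) (x : E n) (v : Fin n → ℝ) : (mat g x)⁻¹ *ᵥ mat g x *ᵥ v = v := by
  rw [mulVec_mulVec, inv_mul hg, one_mulVec]

theorem gh_mul (hg : Met g) (x : E n) (v : Fin n → ℝ) : mat g x *ᵥ (mat g x)⁻¹ *ᵥ v = v := by
  rw [mulVec_mulVec, P366XR.mul_inv hg, one_mulVec]

theorem ev_gr (g : Field n) (f : E n → ℝ) (x : E n) : ev (gr g f) x = (mat g x)⁻¹ *ᵥ dd f x := rfl

theorem ev_Pv (hg : Met g) (x : E n) :
    mat g x *ᵥ ev (Pv g K N X) x = dd N x + mat K x *ᵥ ev X x := by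
  rw [show ev (Pv g K N X) x = (mat g x)⁻¹ *ᵥ dd N x + (mat g x)⁻¹ *ᵥ mat K x *ᵥ ev X x from rfl,
    mulVec_add, gh_mul hg, gh_mul hg]

theorem ev_Vz (hg : Met g) (x : E n) :
    ev (Vz g K N X Z) x = (mat g x)⁻¹ *ᵥ Tw g K N X x *ᵥ ev Z x := by
  rw [Tw, tw_mul (mat_sy hg x), Am]
  simp only [mulVec_sub, mulVec_add, mulVec_smul, neg_mulVec, add_mulVec, smul_mulVec, mulVec_neg,
    ← mulVec_mulVec, hg_mul hg]
  ext i
  simp only [ev, Vz, Pi.sub_apply, Pi.add_apply, Pi.smul_apply, Pi.neg_apply, smul_eq_mul, mul_neg,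
    neg_mul]
  rfl

theorem kid_mat (h : Kid g K N X x) :
    mat g x * Dm g X x + (mat g x * Dm g X x)ᵀ = (-2 * N x) • mat K x := by
  ext i j
  have := h i j
  rw [Finset.sum_add_distrib, add_comm] at this
  exact this

theorem am_sk (sK : (mat K x)ᵀ = mat K x) (h : Kid g K N X x) :
    (Am g K N X x)ᵀ = -Am g K N X x := by
  have := eq_sub_of_add_eq' (kid_mat h)
  rw [Am, transpose_neg, transpose_add, transpose_smul, this, sK]
  module

theorem dm_eq (hg : Met g) (x : E n) :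
    Dm g X x = -((mat g x)⁻¹ * Am g K N X x) - N x • ((mat g x)⁻¹ * mat K x) := by
  rw [Am, Matrix.mul_neg, neg_neg, Matrix.mul_add, ← Matrix.mul_assoc, inv_mul hg, Matrix.one_mul,
    Matrix.mul_smul, add_sub_cancel_right]

theorem dv_X (hg : Met g) (sK : (mat K x)ᵀ = mat K x) (h : Kid g K N X x) (hX : Df X x) :
    dv g X x = -N x * tr g K x := by
  rw [dv_eq hg hX, dm_eq (K := K) (N := N) hg, trace_sub, trace_neg, trace_mul_comm,
    tr_sk (am_sk sK h) (inv_sy hg x), trace_smul, tr_eq hg]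
  simp

theorem dd_la (hg : Met g) (sK : (mat K x)ᵀ = mat K x) (h : Kid g K N X x) (hX : Df X x)
    (hN : DifferentiableAt ℝ N x) : dd (la g N X) x =
      (2 : ℝ) • (N x • mat g x *ᵥ ev (Pv g K N X) x - Am g K N X x *ᵥ ev X x) := by
  ext k
  have e : pd k (la g N X) x = _ := pd_sub (hN.fun_pow 2) (df_bl hg.sm hX hX) k
  have e1 : (Am g K N X x *ᵥ ev X x) k = ev X x ⬝ᵥ mat g x *ᵥ (fun i => Dm g X x i k) +
      N x * (mat K x *ᵥ ev X x) k := by
    have := congrArg (fun B => (B *ᵥ ev X x) k) (am_sk sK h)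
    simp only [neg_mulVec, Pi.neg_apply] at this
    rw [← neg_neg ((Am g K N X x *ᵥ ev X x) k), ← this, Am, transpose_neg, neg_mulVec,
      Pi.neg_apply, neg_neg, transpose_add, transpose_smul, sK, add_mulVec, smul_mulVec]
    simp only [Pi.add_apply, Pi.smul_apply, smul_eq_mul, mulVec, dotProduct, transpose_apply,
      mul_apply, mul_comm (ev X x _)]
  rw [dd, e, pd_pow hN, pd_bl g hg.sm hX hX, cM_g hg, ev_Pv hg, sy_dot (mat_sy hg x) _ (ev X x)]
  simp only [Pi.smul_apply, Pi.sub_apply, Pi.add_apply, smul_eq_mul, e1, zero_mulVec,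
    dotProduct_zero, dd]
  norm_num
  ring

theorem ee_mat (g K : Field n) (N : E n → ℝ) (X : Vf n) (x : E n) : mat (EE g K N X) x =
    mat (hess g N) x + (cX g K (ev X x) x + (Dm g X x)ᵀ * mat K x + mat K x * Dm g X x) -
      N x • (mat (rc g) x + tr g K x • mat K x -
        (2 : ℝ) • (mat K x * (mat g x)⁻¹ * mat K x)) := by
  ext i j
  simp only [cX, Matrix.sub_apply, Matrix.add_apply, Matrix.smul_apply, Matrix.sum_apply,
    mul_apply, transpose_apply, smul_eq_mul, Finset.sum_mul]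
  rw [Finset.sum_comm (f := fun l k => mat K x i k * (mat g x)⁻¹ k l * mat K x l j)]
  simp only [← Finset.sum_add_distrib, mul_comm (Dm g X x _ i)]
  rfl

theorem df_Pv (hg : Met g) (hK : Sm K) (hN : ContDiffAt ℝ 2 N x) (hX : Df X x) :
    Df (Pv g K N X) x := fun i => (hg.diff_gr hN i).fun_add (df_hi hg (df_lo hK hX) i)

theorem dm_Pv (hg : Met g) (hK : Sm K) (hN : ContDiffAt ℝ 2 N x) (hX : Df X x) :
    mat g x *ᵥ Dm g (Pv g K N X) x *ᵥ ev X x = mat (hess g N) x *ᵥ ev X x +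
      (cX g K (ev X x) x *ᵥ ev X x + mat K x *ᵥ Dm g X x *ᵥ ev X x) := by
  rw [show Dm g (Pv g K N X) x = _ from Dm_add g (hg.diff_gr hN) (df_hi hg (df_lo hK hX)),
    Dm_gr hg hN, add_mulVec, mulVec_add, ← mulVec_mulVec, gh_mul hg, mul_col (Dm g (hi _ _) x),
    mul_col (Dm g X x), cX]
  simp only [col_sh hg hK hX, mulVec_sum, mulVec_smul, gh_mul hg, sum_mulVec, smul_mulVec,
    smul_add, Finset.sum_add_distrib]

theorem nsq_tr (hg : Met g) (sK : (mat K x)ᵀ = mat K x) :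
    normSq g K x = trace ((mat g x)⁻¹ * mat K x * (mat g x)⁻¹ * mat K x) := by
  have s : ∀ i j, K x i j = K x j i := fun i j => congrFun (congrFun sK j) i
  simp only [normSq, trace, diag, mul_apply, Finset.sum_mul]
  refine Finset.sum_congr rfl fun i _ => Finset.sum_congr rfl fun j _ => ?_
  rw [Finset.sum_comm]
  refine Finset.sum_congr rfl fun l _ => Finset.sum_congr rfl fun k _ => ?_
  rw [hg.up_sy j l, s i j]
  simp only [up, mat]
  ring

theorem dv_Pv (hg : Met g) (hK : Sm K) (sK : (mat K x)ᵀ = mat K x) (h : KV g K N X x) :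
    dv g (Pv g K N X) x = 0 := by
  have hX := h.cX.df
  have e1 := congrArg (fun B => trace ((mat g x)⁻¹ * B)) (ee_mat g K N X x)
  have e0 : mat (EE g K N X) x = 0 := Matrix.ext h.ee
  have e2 : trace ((mat g x)⁻¹ * (mat K x * Dm g X x)) = -N x * normSq g K x := by
    have := tr_sk (am_sk sK h.kid.self_of_nhds) (S := (mat g x)⁻¹ * mat K x * (mat g x)⁻¹)
      (by simp only [transpose_mul, inv_sy hg, sK, Matrix.mul_assoc])
    rw [trace_mul_comm] at this
    rw [dm_eq (K := K) (N := N) hg, nsq_tr hg sK]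
    simp only [Matrix.mul_sub, Matrix.mul_neg, Matrix.mul_smul, trace_sub, trace_neg, trace_smul,
      smul_eq_mul, Matrix.mul_assoc] at this ⊢
    rw [this]
    ring
  have e3 : trace ((mat g x)⁻¹ * ((Dm g X x)ᵀ * mat K x)) = -N x * normSq g K x := by
    rw [← e2, ← trace_transpose, transpose_mul, transpose_mul, transpose_transpose, sK, inv_sy hg,
      trace_mul_comm]
  have e4 : ev (dvT g K) x ⬝ᵥ ev X x = D X (tr g K) x := by
    rw [dotProduct_comm]
    exact congrArg _ (funext fun j => sub_eq_zero.1 ((mom_eq hg hK j x).symm.trans (h.mo j)))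
  have e5 := h.mu
  rw [P366.Stmt.mu, P366P.scal_eq_tr hg, tr_eq hg (rc g)] at e5
  rw [show dv g (Pv g K N X) x = _ from hg.dv_add (hg.diff_gr h.cN) (df_hi hg (df_lo hK hX)),
    dv_eq hg (hg.diff_gr h.cN), Dm_gr hg h.cN, dv_sh hg hK hX, e2, e4, D_tr hg hK]
  simp only [e0, Matrix.mul_zero, trace_zero, Matrix.mul_sub, Matrix.mul_add, Matrix.mul_smul,
    trace_sub, trace_add, trace_smul, smul_eq_mul, e2, e3, ← tr_eq hg K] at e1
  simp only [← Matrix.mul_assoc, ← nsq_tr hg sK] at e1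
  linear_combination -e1 + 2 * N x * e5

theorem df_Vz (hg : Met g) (hK : Sm K) (hN : ContDiffAt ℝ 2 N x) (hX : C2 X x) (hZ : Df Z x) :
    Df (Vz g K N X Z) x := fun i =>
  (((diff2 hN).fun_neg.fun_mul ((df_nab hg hZ hX i).fun_add
    ((diff2 hN).fun_mul (df_hi hg (df_lo hK hZ) i)))).fun_add
    ((df_bl hg.sm (df_Pv hg hK hN hX.df) hZ).fun_mul (hX.df i))).fun_sub
    ((df_bl hg.sm hX.df hZ).fun_mul (df_Pv hg hK hN hX.df i))

theorem dv_sm (hg : Met g) (hf : DifferentiableAt ℝ f x) (hZ : Df Z x) :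
    dv g (fun i y => f y * Z i y) x = f x * dv g Z x + D Z f x := by
  rw [hg.dv_smul hf hZ, D, dotProduct_comm]; rfl

theorem dv_sb (hg : Met g) (hX : Df X x) (hZ : Df Z x) :
    dv g (fun i y => X i y - Z i y) x = dv g X x - dv g Z x := by
  rw [dv_eq hg hX, dv_eq hg hZ, dv_eq hg fun i => (hX i).fun_sub (hZ i), Dm_sub g hX hZ, trace_sub]

theorem cX_g (hg : Met g) (v : Fin n → ℝ) (x : E n) : cX g g v x = 0 := by simp [cX, cM_g hg]

/-- the twist is divergence free -/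
theorem dv_Vz (hg : Met g) (hK : Sm K) (sK : ∀ y, (mat K y)ᵀ = mat K y) (h : KV g K N X x)
    (hZ : Df Z x) : dv g (Vz g K N X Z) x = trace ((mat g x)⁻¹ * Tw g K N X x * Dm g Z x) := by
  have hX := h.cX.df
  have hN := diff2 h.cN
  have hP := df_Pv hg hK h.cN hX
  have d1 := df_nab hg hZ h.cX
  have d2 := df_hi hg (df_lo hK hZ)
  have d3 : Df (fun i y => N y * hi g (lo K Z) i y) x := fun i => hN.fun_mul (d2 i)
  have d4 : Df (fun i y => nab g Z X i y + N y * hi g (lo K Z) i y) x := fun i =>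
    (d1 i).fun_add (d3 i)
  have d5 := df_bl hg.sm hP hZ
  have d6 := df_bl hg.sm hX hZ
  have d7 : Df (fun i y => -N y * (nab g Z X i y + N y * hi g (lo K Z) i y)) x := fun i =>
    hN.fun_neg.fun_mul (d4 i)
  have d8 : Df (fun i y => bl g (Pv g K N X) Z y * X i y) x := fun i => d5.fun_mul (hX i)
  have e1 : D Z (dv g X) x = -(ev Z x ⬝ᵥ dd N x * tr g K x) - N x * (ev Z x ⬝ᵥ dd (tr g K) x) := by
    have : dv g X =ᶠ[𝓝 x] fun y => -N y * tr g K y := by
      filter_upwards [h.kid, h.cX.ev] with y a b using dv_X hg (sK y) a b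
    have k : dd (dv g X) x = -(tr g K x • dd N x) - N x • dd (tr g K) x := by
      ext j
      simp only [dd, pd_congr this, pd_mul hN.fun_neg ((sm_tr hg hK).diff x), pd_neg, Pi.sub_apply,
        Pi.neg_apply, Pi.smul_apply, smul_eq_mul]
      ring
    rw [D, k]
    simp only [dotProduct_sub, dotProduct_neg, dotProduct_smul, smul_eq_mul]
    ring
  have e2 : ev (dvT g K) x = dd (tr g K) x :=
    funext fun j => sub_eq_zero.1 ((mom_eq hg hK j x).symm.trans (h.mo j))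
  have e3 : D (fun i y => nab g Z X i y + N y * hi g (lo K Z) i y) (fun y => -N y) x =
      -(dd N x ⬝ᵥ (Dm g X x *ᵥ ev Z x + N x • (mat g x)⁻¹ *ᵥ mat K x *ᵥ ev Z x)) := by
    rw [D, show dd (fun y => -N y) x = -dd N x from funext fun j => pd_neg j, dotProduct_neg,
      dotProduct_comm]
    rfl
  have e4 : D (hi g (lo K Z)) N x = dd N x ⬝ᵥ (mat g x)⁻¹ *ᵥ mat K x *ᵥ ev Z x :=
    dotProduct_comm _ _
  have e5 := congrArg (· *ᵥ ev X x) (ee_mat g K N X x)
  have e0 : mat (EE g K N X) x = 0 := Matrix.ext h.ee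
  simp only [e0, zero_mulVec, sub_mulVec, add_mulVec, smul_mulVec, ← mulVec_mulVec] at e5
  have e6 := z_alg (Z := ev Z x) (R := mat (rc g) x) (T := tr g K x) (mat_sy hg x) (inv_sy hg x)
    (P366XR.mul_inv hg x) (sK x) (kid_mat h.kid.self_of_nhds) (ev_Pv (N := N) hg x)
    (V := Dm g (Pv g K N X) x *ᵥ ev X x) (by
      rw [dm_Pv hg hK h.cN hX, ← sub_eq_zero, e5]; abel)
  have e7 : trace ((mat g x)⁻¹ * Tw g K N X x * Dm g Z x) =
      -N x * (trace (Dm g Z x * Dm g X x) + N x * trace ((mat g x)⁻¹ * (mat K x * Dm g Z x))) +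
      ev (Pv g K N X) x ⬝ᵥ mat g x *ᵥ Dm g Z x *ᵥ ev X x -
      ev X x ⬝ᵥ mat g x *ᵥ Dm g Z x *ᵥ ev (Pv g K N X) x := by
    rw [trace_mul_comm, Tw, tw, Am]
    simp only [Matrix.mul_sub, Matrix.mul_add, Matrix.mul_smul, Matrix.mul_neg, smul_neg,
      ← Matrix.mul_assoc (mat g x)⁻¹ (mat g x), inv_mul hg, Matrix.one_mul, trace_sub, trace_add,
      trace_neg, trace_smul, smul_eq_mul, mul_vecMulVec (mat g x)⁻¹, hg_mul hg, tr_vv]
    rw [sy_dot (mat_sy hg x) (ev X x), sy_dot (mat_sy hg x) (ev (Pv g K N X) x),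
      dotProduct_comm (_ *ᵥ ev X x) (mat g x *ᵥ _), dotProduct_comm (Dm g Z x *ᵥ _) (mat g x *ᵥ _),
      trace_mul_comm (Dm g Z x) (_ * _), Matrix.mul_assoc]
    ring
  rw [show dv g (Vz g K N X Z) x = _ from dv_sb hg (fun i => (d7 i).fun_add (d8 i))
    fun i => d6.fun_mul (hP i), hg.dv_add d7 d8, dv_sm hg hN.fun_neg d4, dv_sm hg d5 hX,
    dv_sm hg d6 hP, hg.dv_add d1 d3, dv_sm hg hN d2, ricci2 hg hZ h.cX, dv_sh hg hK hZ,
    dv_Pv hg hK (sK x) h, dv_X hg (sK x) h.kid.self_of_nhds hX, D_bl g hg.sm hP hZ,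
    D_bl g hg.sm hX hZ, e1, e2, e3, e4, e7, cX_g hg, cX_g hg, dotProduct_comm (dd (tr g K) x)]
  simp only [zero_mulVec, dotProduct_zero, bl]
  linear_combination e6

end Vale.Agent.P366ST.C
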