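import Vale.Agent.P366ST.Div

/-!
# P366ST: the currents in a chart
-/

open Filter Topology Matrix Asymptotics
open scoped ContDiff
open Vale.Agent.P366.Stmt Vale.Agent.P366XR
open Vale.Agent.P366Z hiding dd
open Vale.Agent.P366P (cd)

noncomputable section

namespace Vale.Agent.P366ST.C

variable {n : ℕ} {g g' K K' : Field n} {N N' f h : E n → ℝ} {X X' Y Z Z' : Vf n} {x : E n}

/-- the current `M X / λ` -/
def Qv (g K : Field n) (N : E n → ℝ) (X : Vf n) : Vf n :=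
  fun i y => (la g N X y)⁻¹ * Vz g K N X X i y

/-- the covector `d λ / 2` -/
def wv (g K : Field n) (N : E n → ℝ) (X : Vf n) (y : E n) : Fin n → ℝ :=
  N y • mat g y *ᵥ ev (Pv g K N X) y - Am g K N X y *ᵥ ev X y

theorem df_la (hg : Met g) (hN : DifferentiableAt ℝ N x) (hX : Df X x) :
    DifferentiableAt ℝ (la g N X) x := (hN.fun_pow 2).fun_sub (df_bl hg.sm hX hX)

theorem vz_self (hg : Met g) (sK : (mat K x)ᵀ = mat K x) (k : Kid g K N X x) (hX : Df X x)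
    (hN : DifferentiableAt ℝ N x) (i : Fin n) : Vz g K N X X i x =
      la g N X x * Pv g K N X i x - N x / 2 * gr g (la g N X) i x +
        bl g (Pv g K N X) X x * X i x := by
  have e1 := congrFun (ev_Vz (K := K) (N := N) (X := X) (Z := X) hg x) i
  have e2 := congrFun (ev_gr g (la g N X) x) i
  rw [dd_la hg sK k hX hN] at e2
  rw [Tw, tw_mul (mat_sy hg x)] at e1
  simp only [mulVec_sub, mulVec_add, mulVec_smul, hg_mul hg, Pi.sub_apply, Pi.add_apply,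
    Pi.smul_apply, smul_eq_mul] at e1 e2
  rw [show Vz g K N X X i x = _ from e1, show gr g (la g N X) i x = _ from e2, la, bl, bl]
  simp only [ev]
  ring

theorem tw_sy (hg : Met g) (sK : (mat K x)ᵀ = mat K x) (k : Kid g K N X x) :
    ((mat g x)⁻¹ * Tw g K N X x * (mat g x)⁻¹)ᵀ = -((mat g x)⁻¹ * Tw g K N X x * (mat g x)⁻¹) := by
  rw [transpose_mul, transpose_mul, inv_sy hg, Tw, tw_sk (am_sk sK k)]
  simp only [Matrix.mul_neg, Matrix.neg_mul, Matrix.mul_assoc]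

theorem facts (hg : Met g) (hK : Sm K) (sK : ∀ y, (mat K y)ᵀ = mat K y) (h : KV g K N X x)
    (hN : 0 < N x) (hl : 0 < la g N X x) :
    0 ≤ dv g (Qv g K N X) x ∧ D (Qv g K N X) (la g N X) x ≤ D (Pv g K N X) (la g N X) x ∧
      D (Qv g K N X) (la g N X) x ^ 2 ≤ la g N X x * dv g (Qv g K N X) x *
        (D (Pv g K N X) (la g N X) x - D (Qv g K N X) (la g N X) x) ∧
      (dv g (Qv g K N X) x = 0 → Tw g K N X x = 0) ∧
      D (Qv g K N X) (la g N X) x =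
        2 * (wv g K N X x ⬝ᵥ (mat g x)⁻¹ *ᵥ Tw g K N X x *ᵥ ev X x) / la g N X x ∧
      D (Pv g K N X) (la g N X) x = 2 * (wv g K N X x ⬝ᵥ ev (Pv g K N X) x) := by
  have hX := h.cX.df
  have k := h.kid.self_of_nhds
  have d := df_la hg (diff2 h.cN) hX
  have e0 : dd (la g N X) x = (2 : ℝ) • wv g K N X x := dd_la hg (sK x) k hX (diff2 h.cN)
  have e1 : D (Vz g K N X X) (la g N X) x =
      2 * (wv g K N X x ⬝ᵥ (mat g x)⁻¹ *ᵥ Tw g K N X x *ᵥ ev X x) := by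
    rw [D, e0, ev_Vz hg, dotProduct_smul, dotProduct_comm, smul_eq_mul]
  have e2 : D (Qv g K N X) (la g N X) x =
      2 * (wv g K N X x ⬝ᵥ (mat g x)⁻¹ *ᵥ Tw g K N X x *ᵥ ev X x) / la g N X x := by
    rw [← e1, D, show ev (Qv g K N X) x = (la g N X x)⁻¹ • ev (Vz g K N X X) x from rfl,
      smul_dotProduct, smul_eq_mul, div_eq_inv_mul, D]
  have e3 : D (Pv g K N X) (la g N X) x = 2 * (wv g K N X x ⬝ᵥ ev (Pv g K N X) x) := by
    rw [D, e0, dotProduct_smul, dotProduct_comm, smul_eq_mul]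
  have e4 : trace ((mat g x)⁻¹ * Tw g K N X x * Dm g X x) =
      trace ((mat g x)⁻¹ * Tw g K N X x * (mat g x)⁻¹ * (Am g K N X x)ᵀ) := by
    have := tr_sk (tw_sy hg (sK x) k) (sK x)
    rw [am_sk (sK x) k, dm_eq (K := K) (N := N) hg x]
    simp only [Matrix.mul_sub, Matrix.mul_neg, Matrix.mul_smul, trace_sub, trace_neg, trace_smul,
      ← Matrix.mul_assoc, this, smul_zero, sub_zero]
  have e5 : dv g (Qv g K N X) x =
      trace ((mat g x)⁻¹ * Tw g K N X x * (mat g x)⁻¹ * (Am g K N X x)ᵀ) / la g N X x -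
        2 * (wv g K N X x ⬝ᵥ (mat g x)⁻¹ *ᵥ Tw g K N X x *ᵥ ev X x) / la g N X x ^ 2 := by
    rw [show dv g (Qv g K N X) x = _ from dv_sm hg (d.fun_inv hl.ne') (df_Vz hg hK h.cN h.cX hX),
      dv_Vz hg hK sK h hX, e4, ← e1, D, D, show dd (fun y => (la g N X y)⁻¹) x =
        (-(la g N X x ^ 2)⁻¹) • dd (la g N X) x from funext fun j => by
          rw [dd, pd_inv d hl.ne', Pi.smul_apply, dd, smul_eq_mul]; ring,
      dotProduct_smul, smul_eq_mul]
    ring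
  obtain ⟨a1, a2, a3, a4, -⟩ := pt_alg (mat_sy hg x) (hg.pos x).inv (inv_mul hg x) (am_sk (sK x) k)
    hN rfl hl rfl rfl e5 e2 e3
  exact ⟨a1, a2, a3, a4, e2, e3⟩

theorem flux (hg : Met g) (hK : Sm K) (sK : ∀ y, (mat K y)ᵀ = mat K y) (k : KV g K N X x)
    (hf : ContDiffAt ℝ 2 f x) (hh : DifferentiableAt ℝ h x) :
    dv g (Vz g K N X fun i y => h y * gr g f i y) x = -D (Vz g K N X (gr g h)) f x := by
  have s := tw_sy hg (sK x) k.kid.self_of_nhds
  have s2 : (mat (hess g f) x)ᵀ = mat (hess g f) x := Matrix.ext fun i j => hg.hess_sy hf j i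
  rw [dv_Vz hg hK sK k fun i => hh.fun_mul (hg.diff_gr hf i), Dm_smul g hh (hg.diff_gr hf),
    Dm_gr hg hf, Matrix.mul_add, Matrix.mul_smul, ← Matrix.mul_assoc, trace_add, trace_smul,
    tr_sk s s2, tr_vv, D, ev_Vz hg, ev_gr, ev_gr, mulVec_mulVec, sk_dot s, dotProduct_comm (_ *ᵥ _)]
  simp only [mulVec_mulVec, Matrix.mul_assoc, smul_zero, zero_add]

/-! ### smoothness -/

/-- vector fields of class `C^1` -/
def C1 (Y : Vf n) (x : E n) : Prop := ∀ i, ContDiffAt ℝ 1 (Y i) x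

theorem c1_sm (hf : Smooth f) : ContDiffAt ℝ 1 f x := hf.contDiffAt.of_le (by norm_cast)

theorem c1_mul {A : E n → Mx n} (hA : ∀ i j, ContDiffAt ℝ 1 (fun y => A y i j) x) (hY : C1 Y x) :
    C1 (fun i y => (A y *ᵥ ev Y y) i) x := fun i =>
  ContDiffAt.sum (s := Finset.univ) fun j _ => (hA i j).mul (hY j)

theorem c1_lo (hK : Sm K) (hY : C1 Y x) : C1 (lo K Y) x := c1_mul (fun i j => c1_sm (hK i j)) hY

theorem c1_hi (hg : Met g) (hY : C1 Y x) : C1 (hi g Y) x :=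
  c1_mul (A := fun y => (mat g y)⁻¹) (fun i j => c1_sm (hg.sm_up i j)) hY

theorem c1_bl (hK : Sm K) (hY : C1 Y x) (hZ : C1 Z x) : ContDiffAt ℝ 1 (bl K Y Z) x :=
  ContDiffAt.sum (s := Finset.univ) fun j _ => (hY j).mul (c1_lo hK hZ j)

theorem c1_two (hX : C2 X x) : C1 X x := fun i => (hX i).of_le one_le_two

theorem c1_gr (hg : Met g) (hf : ContDiffAt ℝ 2 f x) : C1 (gr g f) x :=
  hg.contDiffAt_gr hf (by norm_num) (by norm_cast)

theorem c1_Pv (hg : Met g) (hK : Sm K) (hN : ContDiffAt ℝ 2 N x) (hX : C2 X x) :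
    C1 (Pv g K N X) x := fun i => (c1_gr hg hN i).add (c1_hi hg (c1_lo hK (c1_two hX)) i)

theorem c1_Vz (hg : Met g) (hK : Sm K) (hN : ContDiffAt ℝ 2 N x) (hX : C2 X x) (hZ : C1 Z x) :
    C1 (Vz g K N X Z) x := fun i => by
  have h1 := hN.of_le one_le_two
  have h2 : C1 (nab g Z X) x := c1_mul (fun i j => (contDiffAt_pd (hX i) (by norm_num) j).add
    (ContDiffAt.sum fun k _ => (c1_sm (hg.sm_chr i j k)).mul (c1_two hX k))) hZ
  exact ((h1.neg.mul ((h2 i).add (h1.mul (c1_hi hg (c1_lo hK hZ) i)))).add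
    ((c1_bl hg.sm (c1_Pv hg hK hN hX) hZ).mul (c1_two hX i))).sub
    ((c1_bl hg.sm (c1_two hX) hZ).mul (c1_Pv hg hK hN hX i))

theorem c1_la (hg : Met g) (hN : ContDiffAt ℝ 2 N x) (hX : C2 X x) :
    ContDiffAt ℝ 1 (la g N X) x :=
  ((hN.of_le one_le_two).pow 2).sub (c1_bl hg.sm (c1_two hX) (c1_two hX))

theorem c1_Qv (hg : Met g) (hK : Sm K) (hN : ContDiffAt ℝ 2 N x) (hX : C2 X x)
    (hl : 0 < la g N X x) : C1 (Qv g K N X) x := fun i =>
  ((c1_la hg hN hX).inv hl.ne').mul (c1_Vz hg hK hN hX (c1_two hX) i)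

/-! ### locality and linearity -/

/-- the data agree near `x` -/
structure Eqv (g g' K K' : Field n) (N N' : E n → ℝ) (X X' : Vf n) (x : E n) : Prop where
  g : g =ᶠ[𝓝 x] g'
  K : K =ᶠ[𝓝 x] K'
  N : N =ᶠ[𝓝 x] N'
  X : ∀ i, X i =ᶠ[𝓝 x] X' i

theorem Eqv.ev (e : Eqv g g' K K' N N' X X' x) : ∀ᶠ y in 𝓝 x, Eqv g g' K K' N N' X X' y := by
  filter_upwards [e.g.eventuallyEq_nhds, e.K.eventuallyEq_nhds, e.N.eventuallyEq_nhds,
    eventually_all.2 fun i => (e.X i).eventuallyEq_nhds] with y a b c d using ⟨a, b, c, d⟩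

theorem Eqv.ex (e : Eqv g g' K K' N N' X X' x) : P366XR.ev X x = P366XR.ev X' x :=
  funext fun i => (e.X i).eq_of_nhds

theorem Eqv.la (e : Eqv g g' K K' N N' X X' x) : la g N X x = la g' N' X' x := by
  simp only [C.la, bl, mat, e.g.eq_of_nhds, e.N.eq_of_nhds, e.ex]

theorem Eqv.pv (e : Eqv g g' K K' N N' X X' x) (i : Fin n) :
    Pv g K N X i x = Pv g' K' N' X' i x := by
  simp only [Pv, gr, up, hi, ev_lo, mat, e.g.eq_of_nhds, e.K.eq_of_nhds, pd_congr e.N, e.ex]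

theorem Eqv.vz (e : Eqv g g' K K' N N' X X' x) (eZ : ∀ i, Z i x = Z' i x) (i : Fin n) :
    Vz g K N X Z i x = Vz g' K' N' X' Z' i x := by
  have e1 : P366XR.ev Z x = P366XR.ev Z' x := funext eZ
  have e2 : P366XR.ev (Pv g K N X) x = P366XR.ev (Pv g' K' N' X') x := funext e.pv
  simp only [Vz, nab, Dm, cd, bl, hi, ev_lo, mat, e.g.eq_of_nhds, e.K.eq_of_nhds, e.ex, e1, e2,
    e.N.eq_of_nhds, (e.X _).eq_of_nhds, e.pv, pd_congr (e.X _), chr_of_ev e.g]

theorem Eqv.qv (e : Eqv g g' K K' N N' X X' x) (i : Fin n) :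
    Qv g K N X i x = Qv g' K' N' X' i x := by
  rw [Qv, Qv, e.la, e.vz fun i => (e.X i).eq_of_nhds]

theorem vz_lin (a : ℝ) (i : Fin n) (e : ev Y x = a • ev Z x - ev Z' x) :
    Vz g K N X Y i x = a * Vz g K N X Z i x - Vz g K N X Z' i x := by
  simp only [Vz, nab, bl, hi, ev_lo, e, mulVec_sub, mulVec_smul, dotProduct_sub, dotProduct_smul,
    Pi.sub_apply, Pi.smul_apply, smul_eq_mul]
  ring

theorem vz_zero (i : Fin n) (e : ev Y x = 0) : Vz g K N X Y i x = 0 := by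
  simp [Vz, nab, bl, hi, ev_lo, e]

/-! ### bounds -/

section B

variable {l : Filter (E n)} {a b c v : E n → ℝ}

theorem o_dot (hY : ∀ i, Y i =O[l] a) (hZ : ∀ i, Z i =O[l] b) (h : (fun y => a y * b y) =O[l] c) :
    (fun y => ev Y y ⬝ᵥ ev Z y) =O[l] c :=
  IsBigO.fun_sum (s := Finset.univ) fun j _ => ((hY j).mul (hZ j)).trans h

theorem o_mv {A : E n → Mx n} (hA : ∀ i j, (fun y => A y i j) =O[l] a) (hY : ∀ i, Y i =O[l] b)
    (h : (fun y => a y * b y) =O[l] c) (i : Fin n) : (fun y => (A y *ᵥ ev Y y) i) =O[l] c :=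
  IsBigO.fun_sum (s := Finset.univ) fun j _ => ((hA i j).mul (hY j)).trans h

theorem o1 : (fun y => (1 : ℝ) * a y) =O[l] a := by simpa using isBigO_refl a l

theorem o2 : (fun y => a y * (1 : ℝ)) =O[l] a := by simpa using isBigO_refl a l

/-- bounds for the data along a filter -/
structure Bd (l : Filter (E n)) (v : E n → ℝ) (g K : Field n) (N : E n → ℝ) (X : Vf n) : Prop where
  bg : ∀ i j, (fun y => mat g y i j) =O[l] fun _ => (1 : ℝ)
  bu : ∀ i j, (fun y => (mat g y)⁻¹ i j) =O[l] fun _ => (1 : ℝ)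
  bc : ∀ k i j, chr g k i j =O[l] v
  bK : ∀ i j, (fun y => mat K y i j) =O[l] v
  bN : N =O[l] fun _ => (1 : ℝ)
  dN : ∀ i, pd i N =O[l] v
  bX : ∀ i, X i =O[l] fun _ => (1 : ℝ)
  dX : ∀ i j, pd j (X i) =O[l] v

theorem Bd.pv (B : Bd l v g K N X) (i : Fin n) : Pv g K N X i =O[l] v :=
  (o_mv (Y := fun j => pd j N) B.bu B.dN o1 i).add (o_mv B.bu (o_mv B.bK B.bX o2) o1 i)

theorem Bd.dm (B : Bd l v g K N X) (i j : Fin n) : (fun y => Dm g X y i j) =O[l] v :=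
  (B.dX i j).add (IsBigO.fun_sum fun k _ => ((B.bc i j k).mul (B.bX k)).trans o2)

theorem Bd.vz (B : Bd l v g K N X) (hZ : ∀ i, Z i =O[l] a) (i : Fin n) :
    Vz g K N X Z i =O[l] fun y => v y * a y := by
  have r := isBigO_refl (fun y => v y * a y) l
  have h1 := o_mv B.bg hZ o1
  refine (((B.bN.neg_left.mul ((o_mv B.dm hZ r i).add
    ((B.bN.mul (o_mv B.bu (o_mv B.bK hZ r) o1 i)).trans o1))).trans o1).add
    (((o_dot B.pv h1 r).mul (B.bX i)).trans o2)).sub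
    (((o_dot B.bX h1 o1).mul (B.pv i)).trans ?_)
  simpa only [mul_comm] using r

theorem Bd.wp (B : Bd l v g K N X) :
    (fun y => wv g K N X y ⬝ᵥ ev (Pv g K N X) y) =O[l] fun y => v y * v y := by
  refine o_dot (Y := fun i y => wv g K N X y i) (fun i => ?_) B.pv (isBigO_refl _ _)
  refine ((B.bN.mul (o_mv B.bg B.pv o1 i)).trans o1).sub (o_mv (fun i j => ?_) B.bX o2 i)
  exact ((IsBigO.fun_sum (s := Finset.univ) fun k _ => ((B.bg i k).mul (B.dm k j)).trans o1).add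
    ((B.bN.mul (B.bK i j)).trans o1)).neg_left

end B

end Vale.Agent.P366ST.C
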