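import Mathlib.Analysis.SpecialFunctions.Pow.Deriv
import Mathlib.Analysis.SpecialFunctions.Pow.Continuity

/-!
# P366ST: the weights for the staticity argument
-/

open Filter Topology Set

noncomputable section

namespace Vale.Agent.P366ST

theorem core_ineq {a k θ l G B c : ℝ} (hk : 0 ≤ k) (hθ : θ ≤ 1) (hl : 0 ≤ l) (hG : 0 ≤ G)
    (hB : 0 ≤ B) (h : (a + k) ^ 2 ≤ 4 * k * (1 - θ)) (hc : c ^ 2 ≤ l * G * B) :
    θ * (l * G) ≤ l * G + (a + k) * c + k * B := by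
  have h1 : ((a + k) * c) ^ 2 ≤ ((1 - θ) * (l * G) + k * B) ^ 2 := by
    rw [mul_pow]
    have h2 : (a + k) ^ 2 * c ^ 2 ≤ 4 * k * (1 - θ) * (l * G * B) :=
      mul_le_mul h hc (sq_nonneg _) ((sq_nonneg _).trans h)
    nlinarith [sq_nonneg ((1 - θ) * (l * G) - k * B)]
  have h3 := (abs_le_of_sq_le_sq' h1 (by
    have : 0 ≤ 1 - θ := by linarith
    positivity)).1
  linarith

theorem rpow_le_add_one {L δ : ℝ} (hL : 0 < L) (h0 : 0 ≤ δ) (h1 : δ ≤ 1) : L ^ δ ≤ L + 1 := by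
  rcases le_total L 1 with h | h
  · linarith [Real.rpow_le_one hL.le h h0]
  · have := Real.rpow_le_rpow_of_exponent_le h h1
    rw [Real.rpow_one] at this
    linarith

theorem min_le_rpow {t s δ : ℝ} (ht : 0 < t) (hs : t ≤ s) (h0 : 0 ≤ δ) (h1 : δ ≤ 1) :
    min 1 t ≤ s ^ δ := by
  rcases le_total s 1 with h | h
  · have := Real.rpow_le_rpow_of_exponent_ge (ht.trans_le hs) h h1
    rw [Real.rpow_one] at this
    exact (min_le_right _ _).trans (hs.trans this)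
  · exact (min_le_left _ _).trans (Real.one_le_rpow h h0)

theorem wt_a {δ u : ℝ} (d0 : 0 < δ) (d1 : δ ≤ 1 / 9) (u0 : 0 < u) (u1 : u ≤ 1) :
    (δ + (1 - δ) * u + (δ ^ 2 + (1 - δ ^ 2) * u)) ^ 2 ≤
      4 * (δ ^ 2 + (1 - δ ^ 2) * u) * (1 - 0) := by
  have q1 : 0 ≤ 1 - δ := by linarith
  have q2 : 0 ≤ 1 - δ ^ 2 := by nlinarith
  have k0 : 0 ≤ δ ^ 2 + (1 - δ ^ 2) * u := by positivity
  have a1 : (δ + (1 - δ) * u) ^ 2 ≤ δ ^ 2 + (1 - δ ^ 2) * u := by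
    nlinarith [mul_nonneg (mul_nonneg (sq_nonneg (1 - δ)) u0.le) (sub_nonneg.2 u1)]
  have a2 : δ ^ 2 + (1 - δ ^ 2) * u ≤ 1 := by nlinarith
  have a3 : 0 ≤ δ + (1 - δ) * u := by positivity
  have a4 : δ + (1 - δ) * u ≤ 1 := by nlinarith
  generalize δ + (1 - δ) * u = a at a1 a3 a4
  generalize δ ^ 2 + (1 - δ ^ 2) * u = k at a1 a2 k0
  nlinarith [mul_nonneg k0 (sub_nonneg.2 a4), mul_nonneg k0 (sub_nonneg.2 a2)]

theorem wt_b {δ u : ℝ} (d0 : 0 < δ) (d1 : δ ≤ 1 / 9) (u0 : 0 < u) (u2 : u ≤ δ ^ 2) :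
    (δ + (1 - δ) * u + (δ ^ 2 + (1 - δ ^ 2) * u)) ^ 2 ≤
      4 * (δ ^ 2 + (1 - δ ^ 2) * u) * (1 - 1 / 2) := by
  have q1 : 0 ≤ 1 - δ := by linarith
  have q2 : 0 ≤ 1 - δ ^ 2 := by nlinarith
  have a1 : δ + (1 - δ) * u + (δ ^ 2 + (1 - δ ^ 2) * u) ≤ 4 / 3 * δ := by
    nlinarith [mul_pos d0 u0, mul_pos (pow_pos d0 2) u0]
  have a2 := pow_le_pow_left₀ (by positivity) a1 2
  nlinarith [mul_nonneg q2 u0.le]

theorem wt_c {m s l ε G : ℝ} (hl : 0 < l) (e0 : 0 < ε) (e1 : ε ≤ l) (hG : 0 ≤ G) (s1 : 0 < s)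
    (s2 : m ≤ s) : m / 4 * G ≤ s / (l + ε) * (1 / 2 * (l * G)) := by
  have a3 : 1 / 2 ≤ l / (l + ε) := by
    rw [le_div_iff₀ (by positivity)]
    linarith
  rw [show s / (l + ε) * (1 / 2 * (l * G)) = s * (l / (l + ε)) / 2 * G by ring]
  refine mul_le_mul_of_nonneg_right ?_ hG
  nlinarith

theorem weights {t L η : ℝ} (ht : 0 < t) (hL : 0 < L) (hη : 0 < η) :
    ∃ ψ χ : ℝ → ℝ, (∀ l, 0 ≤ l → ContDiffAt ℝ 1 ψ l ∧ ContDiffAt ℝ 1 χ l) ∧ ψ 0 = 0 ∧ χ 0 = 0 ∧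
      |χ L| ≤ η ∧ ∀ l, 0 < l → ∀ G B c : ℝ, 0 ≤ G → 0 ≤ B → c ^ 2 ≤ l * G * B →
        0 ≤ ψ l * G + (deriv ψ l + deriv χ l) * c + deriv χ l * B ∧
        (t ≤ l → min 1 t / 4 * G ≤ ψ l * G + (deriv ψ l + deriv χ l) * c + deriv χ l * B) := by
  obtain ⟨δ, d0, d1, d2⟩ : ∃ δ : ℝ, 0 < δ ∧ δ ≤ 1 / 9 ∧ δ * L ^ δ < η := by
    refine ⟨min (1 / 9) (η / (2 * (L + 1))), by positivity, min_le_left _ _, ?_⟩
    have h1 := rpow_le_add_one (δ := min (1 / 9) (η / (2 * (L + 1)))) hL (by positivity)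
      ((min_le_left _ _).trans (by norm_num))
    refine (mul_le_mul (min_le_right _ _) h1 (by positivity) (by positivity)).trans_lt ?_
    rw [show η / (2 * (L + 1)) * (L + 1) = η / 2 by field_simp]
    linarith
  obtain ⟨ε, e0, e1, e2⟩ : ∃ ε : ℝ, 0 < ε ∧ ε ≤ δ ^ 2 * t ∧
      |δ * (L + ε) ^ δ - (1 + δ) * ε * (L + ε) ^ (δ - 1) + ε ^ δ| ≤ η := by
    have c1 : ∀ p : ℝ, ContinuousAt (fun ε : ℝ => (L + ε) ^ p) 0 := fun p =>
      ContinuousAt.rpow_const (by fun_prop) (Or.inl (by simpa using hL.ne'))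
    have c2 : ContinuousAt (fun ε : ℝ => ε ^ δ) 0 :=
      ContinuousAt.rpow_const continuousAt_id (Or.inr d0.le)
    have c3 : ContinuousAt (fun ε : ℝ =>
        |δ * (L + ε) ^ δ - (1 + δ) * ε * (L + ε) ^ (δ - 1) + ε ^ δ|) 0 :=
      ((((c1 δ).const_mul δ).sub ((continuousAt_id.const_mul (1 + δ)).mul (c1 _))).add c2).abs
    have c4 := c3.eventually (gt_mem_nhds (a := η) (by
      simp only [add_zero, mul_zero, zero_mul, sub_zero, Real.zero_rpow d0.ne']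
      rwa [abs_of_nonneg (by positivity)]))
    have c5 : ∀ᶠ ε : ℝ in 𝓝 0, ε < δ ^ 2 * t := gt_mem_nhds (by positivity)
    obtain ⟨ε, h1, h2⟩ := (((c4.and c5).filter_mono nhdsWithin_le_nhds).and
      (self_mem_nhdsWithin (s := Ioi (0 : ℝ)) (a := 0))).exists
    exact ⟨ε, h2, h1.2.le, h1.1.le⟩
  have cp : ∀ (p l : ℝ), 0 ≤ l → ContDiffAt ℝ 1 (fun l : ℝ => (l + ε) ^ p) l := fun p l hl =>
    ContDiffAt.rpow_const_of_ne (by fun_prop) (by positivity)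
  have dp : ∀ (p l : ℝ), 0 ≤ l → HasDerivAt (fun l : ℝ => (l + ε) ^ p) (p * (l + ε) ^ (p - 1)) l :=
    fun p l hl => by
      simpa using ((hasDerivAt_id l).add_const ε).rpow_const (p := p) (Or.inl (by
        simp only [id]; positivity))
  refine ⟨fun l => l * (l + ε) ^ (δ - 1),
    fun l => δ * (l + ε) ^ δ - (1 + δ) * ε * (l + ε) ^ (δ - 1) + ε ^ δ,
    fun l hl => ⟨contDiffAt_id.mul (cp _ l hl), ((contDiffAt_const.mul (cp _ l hl)).sub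
      (contDiffAt_const.mul (cp _ l hl))).add contDiffAt_const⟩, by simp, ?_, e2,
    fun l hl G B c hG hB hc => ?_⟩
  · simp only [zero_add]
    rw [Real.rpow_sub_one e0.ne']
    field_simp
    ring
  have s0 : 0 < l + ε := by positivity
  have D1 := ((hasDerivAt_id' l).fun_mul (dp (δ - 1) l hl.le)).deriv
  have D2 := ((((dp δ l hl.le).const_mul δ).fun_sub
    ((dp (δ - 1) l hl.le).const_mul ((1 + δ) * ε))).add_const (ε ^ δ)).deriv
  rw [D1, D2]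
  simp only [Real.rpow_sub_one s0.ne']
  have s1 := Real.rpow_pos_of_pos s0 δ
  have s2 : t ≤ l → min 1 t ≤ (l + ε) ^ δ := fun h =>
    min_le_rpow ht (by linarith) d0.le (by linarith)
  generalize (l + ε) ^ δ = s at s1 s2 ⊢
  obtain ⟨u, hu⟩ : ∃ u, u = ε / (l + ε) := ⟨_, rfl⟩
  have u0 : 0 < u := by rw [hu]; positivity
  have u1 : u ≤ 1 := by rw [hu, div_le_one s0]; linarith
  have E : l * (s / (l + ε)) * G + (1 * (s / (l + ε)) + l * ((δ - 1) * (s / (l + ε) / (l + ε))) +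
      (δ * (δ * (s / (l + ε))) - (1 + δ) * ε * ((δ - 1) * (s / (l + ε) / (l + ε))))) * c +
      (δ * (δ * (s / (l + ε))) - (1 + δ) * ε * ((δ - 1) * (s / (l + ε) / (l + ε)))) * B =
      s / (l + ε) * (l * G + (δ + (1 - δ) * u + (δ ^ 2 + (1 - δ ^ 2) * u)) * c +
        (δ ^ 2 + (1 - δ ^ 2) * u) * B) := by
    rw [hu]; field_simp; ring
  rw [E]
  have q2 : 0 ≤ 1 - δ ^ 2 := by nlinarith
  have k0 : 0 ≤ δ ^ 2 + (1 - δ ^ 2) * u := by positivity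
  refine ⟨mul_nonneg (by positivity) ?_, fun h => ?_⟩
  · exact le_trans (by simp) (core_ineq k0 zero_le_one hl.le hG hB (wt_a d0 d1 u0 u1) hc)
  · have e3 : δ ^ 2 * t ≤ δ ^ 2 * l := mul_le_mul_of_nonneg_left h (sq_nonneg _)
    have u2 : u ≤ δ ^ 2 := by
      rw [hu, div_le_iff₀ s0, mul_add]
      linarith [mul_nonneg (sq_nonneg δ) e0.le]
    have b := core_ineq k0 (by norm_num) hl.le hG hB (wt_b d0 d1 u0 u2) hc
    refine le_trans (wt_c hl e0 ?_ hG s1 (s2 h)) (mul_le_mul_of_nonneg_left b (by positivity))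
    linarith [mul_nonneg q2 hl.le]

end Vale.Agent.P366ST
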